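import Mathlib

/-! A smooth step function `F` with `F = 0` on `(-∞,0]`, `F = 1` on `[1,∞)` and
`F' x = (3/2) (F (3x) - F (3x-2))`. -/

set_option autoImplicit false

namespace Crest.Agent.H4.Fab

open Filter Topology MeasureTheory Set

/-- averaging operator -/
noncomputable def avgOp (f : ℝ → ℝ) (x : ℝ) : ℝ := ∫ u in (0:ℝ)..1, f (3 * x - 2 * u)

/-- iterates -/
noncomputable def it : ℕ → ℝ → ℝ
  | 0 => fun x => max 0 (min x 1)
  | n + 1 => avgOp (it n)

structure Good (f : ℝ → ℝ) : Prop where
  cont : Continuous f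
  mono : Monotone f
  zero : ∀ x, x ≤ 0 → f x = 0
  one : ∀ x, 1 ≤ x → f x = 1

lemma Good.nonneg {f : ℝ → ℝ} (h : Good f) (x : ℝ) : 0 ≤ f x := by
  rcases le_total x 0 with hx | hx
  · exact (h.zero x hx).ge
  · rw [← h.zero 0 le_rfl]; exact h.mono hx

lemma Good.le_one {f : ℝ → ℝ} (h : Good f) (x : ℝ) : f x ≤ 1 := by
  rcases le_total x 1 with hx | hx
  · rw [← h.one 1 le_rfl]; exact h.mono hx
  · exact (h.one x hx).le

lemma good_it0 : Good (it 0) := by
  refine ⟨?_, ?_, ?_, ?_⟩
  · show Continuous fun x : ℝ => max 0 (min x 1)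
    fun_prop
  · intro x y hxy
    show max 0 (min x 1) ≤ max 0 (min y 1)
    exact max_le_max le_rfl (min_le_min hxy le_rfl)
  · intro x hx
    show max 0 (min x 1) = 0
    rw [min_eq_left (by linarith), max_eq_left hx]
  · intro x hx
    show max 0 (min x 1) = 1
    rw [min_eq_right hx, max_eq_right zero_le_one]

lemma int_comp {f : ℝ → ℝ} (hf : Continuous f) (x a b : ℝ) :
    IntervalIntegrable (fun u => f (3 * x - 2 * u)) volume a b :=
  (hf.comp (by fun_prop)).intervalIntegrable _ _

lemma good_avg {f : ℝ → ℝ} (h : Good f) : Good (avgOp f) := by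
  refine ⟨?_, ?_, ?_, ?_⟩
  · have h2 : Continuous (Function.uncurry fun (x u : ℝ) => f (3 * x - 2 * u)) :=
      h.cont.comp (by fun_prop)
    exact intervalIntegral.continuous_parametric_intervalIntegral_of_continuous' h2 _ _
  · intro x y hxy
    refine intervalIntegral.integral_mono_on zero_le_one (int_comp h.cont _ _ _)
      (int_comp h.cont _ _ _) fun u _ => h.mono (by linarith)
  · intro x hx
    unfold avgOp
    rw [intervalIntegral.integral_congr (g := fun _ => (0:ℝ))]
    · simp
    · intro u hu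
      rw [uIcc_of_le zero_le_one] at hu
      exact h.zero _ (by linarith [hu.1])
  · intro x hx
    unfold avgOp
    rw [intervalIntegral.integral_congr (g := fun _ => (1:ℝ))]
    · simp
    · intro u hu
      rw [uIcc_of_le zero_le_one] at hu
      exact h.one _ (by linarith [hu.2])

lemma good_it (n : ℕ) : Good (it n) := by
  induction n with
  | zero => exact good_it0
  | succ n ih => exact good_avg ih

/-- substituted form -/
lemma avgOp_eq (f : ℝ → ℝ) (x : ℝ) : avgOp f x = (1/2) * ∫ v in (3 * x - 2)..(3 * x), f v := by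
  unfold avgOp
  rw [intervalIntegral.integral_comp_sub_mul (fun v => f v) (by norm_num : (2:ℝ) ≠ 0)]
  simp only [smul_eq_mul, mul_one, mul_zero, sub_zero]
  norm_num

lemma contr {f g : ℝ → ℝ} (hf : Good f) (hg : Good g) (ε : ℝ) (h : ∀ x, |f x - g x| ≤ ε)
    (x : ℝ) : |avgOp f x - avgOp g x| ≤ ε / 2 := by
  have hε : 0 ≤ ε := (abs_nonneg _).trans (h 0)
  rw [avgOp_eq, avgOp_eq, ← mul_sub, ← intervalIntegral.integral_sub
    (hf.cont.intervalIntegrable _ _) (hg.cont.intervalIntegrable _ _), abs_mul,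
    abs_of_pos (by norm_num : (0:ℝ) < 1/2)]
  have h1 : ‖∫ v in (3 * x - 2)..(3 * x), (f v - g v)‖
      ≤ ∫ v in (3 * x - 2)..(3 * x), (Icc (0:ℝ) 1).indicator (fun _ => ε) v := by
    refine intervalIntegral.norm_integral_le_of_norm_le (by linarith)
      (Filter.Eventually.of_forall fun v _ => ?_) ?_
    · by_cases hv : v ∈ Icc (0:ℝ) 1
      · rw [indicator_of_mem hv]; exact h v
      · rw [indicator_of_notMem hv]
        rw [mem_Icc, not_and_or, not_le, not_le] at hv
        rcases hv with hv | hv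
        · rw [hf.zero v hv.le, hg.zero v hv.le]; simp
        · rw [hf.one v hv.le, hg.one v hv.le]; simp
    · have h0 : IntervalIntegrable (fun _ : ℝ => ε) volume (3 * x - 2) (3 * x) :=
        intervalIntegrable_const
      rw [intervalIntegrable_iff] at h0 ⊢
      exact Integrable.indicator h0 measurableSet_Icc
  have h2 : ∫ v in (3 * x - 2)..(3 * x), (Icc (0:ℝ) 1).indicator (fun _ => ε) v ≤ ε := by
    rw [intervalIntegral.integral_of_le (by linarith),
      setIntegral_indicator measurableSet_Icc, setIntegral_const, smul_eq_mul]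
    have h3 : volume.real (Ioc (3 * x - 2) (3 * x) ∩ Icc (0:ℝ) 1) ≤ 1 := by
      have := measureReal_mono (μ := (volume : Measure ℝ))
        (s₁ := Ioc (3 * x - 2) (3 * x) ∩ Icc (0:ℝ) 1) (s₂ := Icc (0:ℝ) 1) inter_subset_right
        (by simp)
      rwa [Real.volume_real_Icc_of_le zero_le_one, sub_zero] at this
    nlinarith
  rw [Real.norm_eq_abs] at h1
  linarith

lemma it_step (n : ℕ) (x : ℝ) : |it (n + 1) x - it n x| ≤ (1/2) ^ n := by
  induction n generalizing x with
  | zero =>
    have h1 := (good_it 1).nonneg x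
    have h2 := (good_it 1).le_one x
    have h3 := (good_it 0).nonneg x
    have h4 := (good_it 0).le_one x
    rw [pow_zero, abs_le]
    constructor <;> simp only [zero_add] at * <;> linarith
  | succ n ih =>
    have := contr (good_it (n + 1)) (good_it n) _ ih x
    rw [pow_succ]
    calc |it (n + 1 + 1) x - it (n + 1) x| ≤ (1/2) ^ n / 2 := this
      _ = _ := by ring

lemma exists_lim (x : ℝ) : ∃ y, Tendsto (fun n => it n x) atTop (𝓝 y) := by
  refine cauchySeq_tendsto_of_complete (cauchySeq_of_le_geometric (1/2) 1 (by norm_num)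
    fun n => ?_)
  rw [dist_comm, Real.dist_eq, one_mul]
  exact it_step n x

/-- the step function -/
noncomputable def F (x : ℝ) : ℝ := (exists_lim x).choose

lemma tendsto_F (x : ℝ) : Tendsto (fun n => it n x) atTop (𝓝 (F x)) := (exists_lim x).choose_spec

lemma F_near (n : ℕ) (x : ℝ) : |it n x - F x| ≤ 2 * (1/2) ^ n := by
  have := dist_le_of_le_geometric_of_tendsto (1/2) 1 (by norm_num)
    (f := fun n => it n x) (fun n => by
      rw [dist_comm, Real.dist_eq, one_mul]; exact it_step n x) (tendsto_F x) n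
  rw [Real.dist_eq] at this
  refine this.trans (le_of_eq ?_)
  norm_num
  ring

lemma F_good : Good F := by
  refine ⟨?_, ?_, ?_, ?_⟩
  · have h : TendstoUniformly it F atTop := by
      rw [Metric.tendstoUniformly_iff]
      intro ε hε
      have h1 : Tendsto (fun n : ℕ => 2 * (1/2 : ℝ) ^ n) atTop (𝓝 (2 * 0)) :=
        (tendsto_pow_atTop_nhds_zero_of_lt_one (by norm_num) (by norm_num)).const_mul 2
      rw [mul_zero] at h1
      filter_upwards [h1.eventually (gt_mem_nhds hε)] with n hn x
      rw [dist_comm, Real.dist_eq]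
      exact (F_near n x).trans_lt hn
    exact h.continuous (Frequently.of_forall fun n => (good_it n).cont)
  · intro x y hxy
    exact le_of_tendsto_of_tendsto' (tendsto_F x) (tendsto_F y) fun n => (good_it n).mono hxy
  · intro x hx
    refine tendsto_nhds_unique (tendsto_F x) ?_
    simp only [(good_it _).zero x hx]
    exact tendsto_const_nhds
  · intro x hx
    refine tendsto_nhds_unique (tendsto_F x) ?_
    simp only [(good_it _).one x hx]
    exact tendsto_const_nhds

lemma F_fix (x : ℝ) : F x = avgOp F x := by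
  have h1 : Tendsto (fun n => it (n + 1) x) atTop (𝓝 (F x)) := (tendsto_add_atTop_iff_nat 1).mpr
    (tendsto_F x)
  have h2 : Tendsto (fun n => it (n + 1) x) atTop (𝓝 (avgOp F x)) := by
    rw [Metric.tendsto_nhds]
    intro ε hε
    have h3 : Tendsto (fun n : ℕ => 2 * (1/2 : ℝ) ^ n) atTop (𝓝 (2 * 0)) :=
      (tendsto_pow_atTop_nhds_zero_of_lt_one (by norm_num) (by norm_num)).const_mul 2
    rw [mul_zero] at h3
    filter_upwards [h3.eventually (gt_mem_nhds hε)] with n hn
    rw [Real.dist_eq]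
    have h4 := contr (good_it n) F_good _ (fun y => F_near n y) x
    have h5 : |it (n + 1) x - avgOp F x| ≤ 2 * (1/2) ^ n / 2 := h4
    have h6 : (0:ℝ) ≤ 2 * (1/2) ^ n := by positivity
    linarith
  exact tendsto_nhds_unique h1 h2

lemma F_hasDeriv (x : ℝ) : HasDerivAt F (3/2 * (F (3 * x) - F (3 * x - 2))) x := by
  have hc := F_good.cont
  have hint : ∀ a b, IntervalIntegrable F volume a b := fun a b => hc.intervalIntegrable a b
  have e : F = fun x => (1/2) * ((∫ v in (0:ℝ)..(3 * x), F v) - ∫ v in (0:ℝ)..(3 * x - 2), F v) := by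
    funext y
    rw [F_fix, avgOp_eq, intervalIntegral.integral_interval_sub_left (hint _ _) (hint _ _)]
  have h1 : HasDerivAt (fun y : ℝ => 3 * y) 3 x := by
    simpa using (hasDerivAt_id x).const_mul 3
  have h2 : HasDerivAt (fun y : ℝ => 3 * y - 2) 3 x := h1.sub_const 2
  have h3 : ∀ y, HasDerivAt (fun u => ∫ v in (0:ℝ)..u, F v) (F y) y := fun y =>
    intervalIntegral.integral_hasDerivAt_right (hint _ _)
      (hc.stronglyMeasurableAtFilter _ _) hc.continuousAt
  have h4 : HasDerivAt (fun y => ∫ v in (0:ℝ)..(3 * y), F v) (F (3 * x) * 3) x :=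
    (h3 (3 * x)).comp x h1
  have h5 : HasDerivAt (fun y => ∫ v in (0:ℝ)..(3 * y - 2), F v) (F (3 * x - 2) * 3) x :=
    HasDerivAt.comp (h₂ := fun u => ∫ v in (0:ℝ)..u, F v) x (h3 (3 * x - 2)) h2
  have h7 : HasDerivAt (fun x => (1/2 : ℝ) * ((∫ v in (0:ℝ)..(3 * x), F v)
      - ∫ v in (0:ℝ)..(3 * x - 2), F v)) (3/2 * (F (3 * x) - F (3 * x - 2))) x :=
    ((h4.sub h5).const_mul (1/2 : ℝ)).congr_deriv (by ring)
  rw [← e] at h7
  exact h7

lemma F_deriv : deriv F = fun x => 3/2 * (F (3 * x) - F (3 * x - 2)) :=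
  funext fun x => (F_hasDeriv x).deriv

lemma F_smooth : ContDiff ℝ (⊤ : ℕ∞) F := by
  rw [contDiff_infty]
  intro n
  induction n with
  | zero => exact contDiff_zero.mpr F_good.cont
  | succ n ih =>
    have h : ContDiff ℝ ((n : WithTop ℕ∞) + 1) F := by
      rw [contDiff_succ_iff_deriv]
      refine ⟨fun x => (F_hasDeriv x).differentiableAt, fun h => ?_, ?_⟩
      · exact absurd h (by simp)
      · rw [F_deriv]
        exact contDiff_const.mul ((ih.comp (contDiff_const.mul contDiff_id)).sub
          (ih.comp ((contDiff_const.mul contDiff_id).sub contDiff_const)))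
    exact_mod_cast h

lemma F_lip (x y : ℝ) : |F x - F y| ≤ 3/2 * |x - y| := by
  have := Convex.norm_image_sub_le_of_norm_deriv_le (f := F) (s := univ) (C := 3/2) (x := y)
    (y := x) (fun z _ => (F_hasDeriv z).differentiableAt) (fun z _ => by
      rw [(F_hasDeriv z).deriv, Real.norm_eq_abs, abs_mul, abs_of_pos (by norm_num : (0:ℝ) < 3/2)]
      have h1 := F_good.nonneg (3 * z)
      have h2 := F_good.le_one (3 * z)
      have h3 := F_good.nonneg (3 * z - 2)
      have h4 := F_good.le_one (3 * z - 2)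
      have : |F (3 * z) - F (3 * z - 2)| ≤ 1 := by rw [abs_le]; constructor <;> linarith
      linarith) convex_univ trivial trivial
  simpa [Real.norm_eq_abs] using this

/-! ### discrete approximation -/

/-- discrete averages -/
noncomputable def avgM (M : ℕ) (f : ℝ → ℝ) (x : ℝ) : ℝ :=
  (∑ i ∈ Finset.range M, f (3 * x - 2 * i / M)) / M

lemma phi_anti {f : ℝ → ℝ} (hf : Monotone f) (M : ℕ) (x : ℝ) (s : Set ℝ) :
    AntitoneOn (fun u : ℝ => f (3 * x - 2 * u / M)) s := by
  intro a _ b _ hab
  refine hf ?_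
  have : 2 * a / M ≤ 2 * b / M := by
    apply div_le_div_of_nonneg_right (by linarith) (Nat.cast_nonneg M)
  linarith

lemma phi_int {f : ℝ → ℝ} (M : ℕ) (hM : 0 < M) (x : ℝ) :
    ∫ u in (0:ℝ)..(0 + M), f (3 * x - 2 * u / M) = M * avgOp f x := by
  have hM' : (M:ℝ) ≠ 0 := by positivity
  unfold avgOp
  have e : ∀ u : ℝ, f (3 * x - 2 * u / M) = (fun w => f (3 * x - 2 * w)) (u / M) := by
    intro u
    show _ = f (3 * x - 2 * (u / M))
    congr 1
    ring
  simp_rw [e]
  rw [intervalIntegral.integral_comp_div (fun w => f (3 * x - 2 * w)) hM']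
  simp [hM']

lemma avg_le_avgM {f : ℝ → ℝ} (hf : Monotone f) (M : ℕ) (hM : 0 < M) (x : ℝ) :
    avgOp f x ≤ avgM M f x := by
  have hM' : (0:ℝ) < M := by positivity
  have h := (phi_anti hf M x (Icc (0:ℝ) (0 + M))).integral_le_sum
  rw [phi_int M hM x] at h
  unfold avgM
  rw [le_div_iff₀ hM']
  simp only [zero_add] at h
  linarith

lemma avgM_le_avg {f : ℝ → ℝ} (hf : Monotone f) (M : ℕ) (hM : 0 < M) (x : ℝ) :
    avgM M f x ≤ avgOp f (x + 2 / (3 * M)) := by
  have hM' : (0:ℝ) < M := by positivity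
  have h := (phi_anti hf M (x + 2 / (3 * M)) (Icc (0:ℝ) (0 + M))).sum_le_integral
  rw [phi_int M hM _] at h
  unfold avgM
  rw [div_le_iff₀ hM']
  have e : ∑ i ∈ Finset.range M, f (3 * (x + 2 / (3 * M)) - 2 * (0 + ((i + 1 : ℕ) : ℝ)) / M)
      = ∑ i ∈ Finset.range M, f (3 * x - 2 * i / M) := by
    refine Finset.sum_congr rfl fun i _ => ?_
    congr 1
    push_cast
    field_simp
    ring
  rw [e] at h
  linarith

/-- the discrete approximations -/
noncomputable def Gd (M : ℕ) : ℕ → ℝ → ℝ
  | 0 => fun x => if 0 ≤ x then 1 else 0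
  | K + 1 => avgM M (Gd M K)

lemma Gd_bounds (M : ℕ) (hM : 0 < M) (K : ℕ) (x : ℝ) :
    F x ≤ Gd M K x ∧ Gd M K x ≤ F (x + ((1/3) ^ K + 1 / M)) := by
  have hM' : (0:ℝ) < M := by positivity
  induction K generalizing x with
  | zero =>
    show F x ≤ (if 0 ≤ x then 1 else 0) ∧ (if 0 ≤ x then (1:ℝ) else 0) ≤ _
    split_ifs with h
    · refine ⟨F_good.le_one x, ?_⟩
      rw [F_good.one]
      have : (0:ℝ) < 1 / M := by positivity
      rw [pow_zero]; linarith
    · push Not at h
      exact ⟨(F_good.zero x h.le).le, F_good.nonneg _⟩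
  | succ K ih =>
    constructor
    · calc F x = avgOp F x := F_fix x
        _ ≤ avgM M F x := avg_le_avgM F_good.mono M hM x
        _ ≤ avgM M (Gd M K) x := by
          unfold avgM
          refine div_le_div_of_nonneg_right (Finset.sum_le_sum fun i _ => (ih _).1) hM'.le
    · have hmono : Monotone (fun y => F (y + ((1/3) ^ K + 1 / M))) := fun a b hab =>
        F_good.mono (by linarith)
      calc avgM M (Gd M K) x ≤ avgM M (fun y => F (y + ((1/3) ^ K + 1 / M))) x := by
            unfold avgM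
            refine div_le_div_of_nonneg_right (Finset.sum_le_sum fun i _ => (ih _).2) hM'.le
        _ = avgM M F (x + ((1/3) ^ K + 1 / M) / 3) := by
            unfold avgM
            have e : ∀ i : ℕ, 3 * x - 2 * (i:ℝ) / M + ((1/3) ^ K + 1 / M)
                = 3 * (x + ((1/3) ^ K + 1 / M) / 3) - 2 * i / M := fun i => by ring
            simp only [e]
        _ ≤ avgOp F ((x + ((1/3) ^ K + 1 / M) / 3) + 2 / (3 * M)) :=
            avgM_le_avg F_good.mono M hM _
        _ = F ((x + ((1/3) ^ K + 1 / M) / 3) + 2 / (3 * M)) := (F_fix _).symm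
        _ = F (x + ((1/3) ^ (K + 1) + 1 / M)) := by
            congr 1
            field_simp
            ring

lemma Gd_near (M : ℕ) (hM : 0 < M) (K : ℕ) (x : ℝ) :
    |F x - Gd M K x| ≤ 3/2 * ((1/3) ^ K + 1 / M) := by
  obtain ⟨h1, h2⟩ := Gd_bounds M hM K x
  have h3 := F_lip (x + ((1/3) ^ K + 1 / M)) x
  rw [add_sub_cancel_left, abs_of_nonneg (by positivity : (0:ℝ) ≤ (1/3) ^ K + 1 / M)] at h3
  have h4 := (le_abs_self _).trans h3
  rw [abs_le]
  constructor <;> linarith

end Crest.Agent.H4.Fab
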