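import Mathlib

/-! Primitive recursive arithmetic on `ℚ` for Mathlib's `Primcodable ℚ`. -/

set_option autoImplicit false

namespace Crest.Agent.H4.QComp

open Encodable

/-! ### generic primitive recursive lemmas -/

lemma prim_sum {α : Type*} [Primcodable α] {g : α → ℕ} {f : α → ℕ → ℕ} (hg : Primrec g)
    (hf : Primrec₂ f) : Primrec (fun a => ∑ i ∈ Finset.range (g a), f a i) := by
  have h : Primrec (fun a => Nat.rec (motive := fun _ => ℕ) 0 (fun i s => s + f a i) (g a)) := by
    refine Primrec.nat_rec' (h := fun a p => p.2 + f a p.1) hg (Primrec.const 0) ?_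
    exact (Primrec.nat_add.comp (Primrec.snd.comp Primrec.snd)
      (hf.comp Primrec.fst (Primrec.fst.comp Primrec.snd))).to₂
  refine h.of_eq fun a => ?_
  induction g a with
  | zero => simp
  | succ n ih => rw [Finset.sum_range_succ, ← ih]

lemma prim_pow : Primrec₂ (fun (a n : ℕ) => a ^ n) := by
  have h : Primrec (fun p : ℕ × ℕ => Nat.rec (motive := fun _ => ℕ) 1 (fun _ s => s * p.1) p.2) := by
    refine Primrec.nat_rec' (h := fun a p => p.2 * a.1) Primrec.snd (Primrec.const 1) ?_
    exact (Primrec.nat_mul.comp (Primrec.snd.comp Primrec.snd)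
      (Primrec.fst.comp Primrec.fst)).to₂
  refine Primrec.of_eq h fun p => ?_
  obtain ⟨a, n⟩ := p
  show Nat.rec (motive := fun _ => ℕ) 1 (fun _ s => s * a) n = a ^ n
  induction n with
  | zero => rfl
  | succ n ih => rw [pow_succ, ← ih]

lemma prim_dvd : PrimrecRel (fun (g a : ℕ) => g ∣ a) := by
  have h : PrimrecRel (fun (g a : ℕ) => a % g = 0) :=
    Primrec.eq.comp (Primrec.nat_mod.comp Primrec.snd Primrec.fst) (Primrec.const 0)
  exact h.of_eq fun g a => (Nat.dvd_iff_mod_eq_zero).symm

lemma prim_gcd : Primrec₂ Nat.gcd := by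
  have hrel : PrimrecRel (fun (p : ℕ × ℕ) (g : ℕ) => g ∣ p.1 ∧ g ∣ p.2) :=
    (prim_dvd.comp Primrec.snd (Primrec.fst.comp Primrec.fst)).and
      (prim_dvd.comp Primrec.snd (Primrec.snd.comp Primrec.fst))
  have h : Primrec (fun p : ℕ × ℕ => Nat.findGreatest (fun g => g ∣ p.1 ∧ g ∣ p.2) (p.1 + p.2)) :=
    Primrec.nat_findGreatest (Primrec.nat_add.comp Primrec.fst Primrec.snd) hrel
  refine h.of_eq fun p => ?_
  obtain ⟨a, b⟩ := p
  simp only
  rw [Nat.findGreatest_eq_iff]
  refine ⟨?_, fun _ => ⟨Nat.gcd_dvd_left _ _, Nat.gcd_dvd_right _ _⟩, ?_⟩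
  · rcases Nat.eq_zero_or_pos a with h | h
    · subst h; simp
    · exact (Nat.gcd_le_left b h).trans (Nat.le_add_right _ _)
  · intro n hn hn2 hcon
    have hdvd := Nat.dvd_gcd hcon.1 hcon.2
    rcases Nat.eq_zero_or_pos (Nat.gcd a b) with h | h
    · rw [Nat.gcd_eq_zero_iff] at h
      omega
    · exact absurd (Nat.le_of_dvd h hdvd) (by omega)

/-! ### the coding of rationals -/

/-- the natural code of a rational -/
def code (q : ℚ) : ℕ := @Encodable.encode ℚ Rat.instEncodable q

lemma code_eq (q : ℚ) : code q = Nat.pair (encode q.num) q.den := rfl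

lemma enc_ofNat (n : ℕ) : encode (n : ℤ) = 2 * n := rfl
lemma enc_negSucc (n : ℕ) : encode (Int.negSucc n) = 2 * n + 1 := rfl

/-- the enumeration of codes -/
def cn (n : ℕ) : ℕ := code (Denumerable.ofNat ℚ n)

lemma cn_eq : ∃ (_ : DecidablePred (· ∈ Set.range code)) (_ : Infinite (Set.range code)),
    ∀ n, cn n = (Nat.Subtype.ofNat (Set.range code) n : ℕ) := by
  refine ⟨@Encodable.decidableRangeEncode ℚ Rat.instEncodable,
    Infinite.of_injective _ (Equiv.ofInjective _ (@Encodable.encode_injective ℚ _)).injective,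
    fun n => ?_⟩
  have : Denumerable.ofNat ℚ n = (@Encodable.equivRangeEncode ℚ Rat.instEncodable).symm
      (@Nat.Subtype.ofNat (Set.range code) (@Encodable.decidableRangeEncode ℚ Rat.instEncodable)
        (Infinite.of_injective _ (Equiv.ofInjective _
          (@Encodable.encode_injective ℚ Rat.instEncodable)).injective) n) := rfl
  unfold cn
  rw [this]
  have h2 := (@Encodable.equivRangeEncode ℚ Rat.instEncodable).apply_symm_apply
    (@Nat.Subtype.ofNat (Set.range code) (@Encodable.decidableRangeEncode ℚ Rat.instEncodable)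
      (Infinite.of_injective _ (Equiv.ofInjective _
        (@Encodable.encode_injective ℚ Rat.instEncodable)).injective) n)
  exact congrArg Subtype.val h2

lemma cn_strictMono : StrictMono cn := by
  obtain ⟨i1, i2, h⟩ := cn_eq
  refine strictMono_nat_of_lt_succ fun n => ?_
  rw [h, h]
  exact Nat.Subtype.lt_succ_self _

/-- the index of a rational in the enumeration -/
def enc (q : ℚ) : ℕ := @encode ℚ (Primcodable.ofDenumerable ℚ).toEncodable q

lemma cn_encode (q : ℚ) : cn (enc q) = code q := by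
  unfold cn
  have : Denumerable.ofNat ℚ (enc q) = q := Denumerable.ofNat_encode q
  rw [this]

/-- validity of a code -/
def isCode (m : ℕ) : Prop := 0 < m.unpair.2 ∧ Nat.gcd ((m.unpair.1 + 1) / 2) m.unpair.2 = 1

instance : DecidablePred isCode := fun m => by unfold isCode; infer_instance

lemma natAbs_enc (z : ℤ) : (encode z + 1) / 2 = z.natAbs := by
  cases z with
  | ofNat n =>
    have : encode (Int.ofNat n) = 2 * n := enc_ofNat n
    have h2 : (Int.ofNat n).natAbs = n := rfl
    rw [this, h2]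
    omega
  | negSucc n => rw [enc_negSucc, Int.natAbs_negSucc]; omega

lemma isCode_iff (m : ℕ) : isCode m ↔ ∃ q, code q = m := by
  constructor
  · rintro ⟨h1, h2⟩
    set z : ℤ := Denumerable.ofNat ℤ m.unpair.1 with hz
    have he : encode z = m.unpair.1 := Denumerable.encode_ofNat _
    rw [← he, natAbs_enc] at h2
    refine ⟨⟨z, m.unpair.2, h1.ne', h2⟩, ?_⟩
    rw [code_eq]
    show Nat.pair (encode z) m.unpair.2 = m
    rw [he, Nat.pair_unpair]
  · rintro ⟨q, rfl⟩
    unfold isCode
    rw [code_eq, Nat.unpair_pair]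
    refine ⟨q.den_pos, ?_⟩
    show Nat.gcd ((encode q.num + 1) / 2) q.den = 1
    rw [natAbs_enc]
    exact q.reduced

lemma isCode_cn (n : ℕ) : isCode (cn n) := (isCode_iff _).mpr ⟨_, rfl⟩

/-- number of codes below `m` -/
def cnt (m : ℕ) : ℕ := ∑ j ∈ Finset.range m, if isCode j then 1 else 0

lemma cnt_cn (n : ℕ) : cnt (cn n) = n := by
  unfold cnt
  rw [← Finset.sum_filter, Finset.sum_const, smul_eq_mul, mul_one]
  have : (Finset.range (cn n)).filter isCode = (Finset.range n).image cn := by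
    ext m
    rw [Finset.mem_filter, Finset.mem_image, Finset.mem_range]
    constructor
    · rintro ⟨h1, h2⟩
      obtain ⟨q, hq⟩ := (isCode_iff m).mp h2
      rw [← cn_encode] at hq
      refine ⟨enc q, ?_, hq⟩
      rw [Finset.mem_range]
      rw [← hq] at h1
      exact cn_strictMono.lt_iff_lt.mp h1
    · rintro ⟨k, hk, rfl⟩
      rw [Finset.mem_range] at hk
      exact ⟨cn_strictMono hk, isCode_cn k⟩
  rw [this, Finset.card_image_of_injective _ cn_strictMono.injective, Finset.card_range]

lemma encode_eq (q : ℚ) : enc q = cnt (code q) := by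
  rw [← cn_encode, cnt_cn]

lemma cn_eq_iff (n m : ℕ) : cn n = m ↔ isCode m ∧ cnt m = n := by
  constructor
  · rintro rfl
    exact ⟨isCode_cn n, cnt_cn n⟩
  · rintro ⟨h1, h2⟩
    obtain ⟨q, rfl⟩ := (isCode_iff m).mp h1
    rw [← encode_eq] at h2
    rw [← h2, cn_encode]

lemma cnt_mono {a b : ℕ} (h : a ≤ b) : cnt a ≤ cnt b := by
  unfold cnt
  exact Finset.sum_le_sum_of_subset (Finset.range_subset_range.mpr h)

lemma cn_le (n : ℕ) : cn n ≤ Nat.pair (2 * n) 1 := by
  have hcode : ∀ j : ℕ, code (j : ℚ) = Nat.pair (2 * j) 1 := fun j => by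
    rw [code_eq, Rat.num_natCast, Rat.den_natCast, enc_ofNat]
  have hsm : StrictMono (fun j : ℕ => Nat.pair (2 * j) 1) := by
    intro a b hab
    exact Nat.pair_lt_pair_left 1 (by omega)
  have hinj : StrictMono (fun j : ℕ => enc (j : ℚ)) := by
    intro a b hab
    have h1 : cn (enc (a : ℚ)) < cn (enc (b : ℚ)) := by
      rw [cn_encode, cn_encode, hcode, hcode]; exact hsm hab
    exact cn_strictMono.lt_iff_lt.mp h1
  have h2 : n ≤ enc (n : ℚ) := hinj.id_le n
  rw [← hcode, ← cn_encode]
  exact cn_strictMono.monotone h2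

lemma prim_isCode : PrimrecPred isCode := by
  have h1 : Primrec (fun m : ℕ => m.unpair.2) := Primrec.snd.comp Primrec.unpair
  have h2 : Primrec (fun m : ℕ => (m.unpair.1 + 1) / 2) :=
    Primrec.nat_div.comp (Primrec.succ.comp (Primrec.fst.comp Primrec.unpair)) (Primrec.const 2)
  exact (Primrec.nat_lt.comp (Primrec.const 0) h1).and
    (Primrec.eq.comp (prim_gcd.comp h2 h1) (Primrec.const 1))

lemma prim_cnt : Primrec cnt := by
  unfold cnt
  refine prim_sum Primrec.id ?_
  exact (Primrec.ite (prim_isCode.comp Primrec.snd) (Primrec.const 1) (Primrec.const 0)).to₂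

lemma prim_cn : Primrec cn := by
  refine Primrec.of_graph ⟨fun n => Nat.pair (2 * n) 1, ?_, cn_le⟩ ?_
  · exact Primrec₂.natPair.comp (Primrec.nat_mul.comp (Primrec.const 2) Primrec.id)
      (Primrec.const 1)
  · have h : PrimrecRel (fun (n m : ℕ) => isCode m ∧ cnt m = n) :=
      (prim_isCode.comp Primrec.snd).and
        (Primrec.eq.comp (prim_cnt.comp Primrec.snd) Primrec.fst)
    exact h.of_eq fun n m => (cn_eq_iff n m).symm

lemma prim_code : Primrec code :=
  (prim_cn.comp Primrec.encode).of_eq cn_encode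

/-! ### numerators and denominators -/

/-- positive part of the numerator -/
def pn (q : ℚ) : ℕ := q.num.toNat
/-- negative part of the numerator -/
def nn (q : ℚ) : ℕ := (-q.num).toNat

lemma q_eq (q : ℚ) : q = ((pn q : ℚ) - nn q) / q.den := by
  have h : ((pn q : ℚ) - nn q) = q.num := by
    unfold pn nn
    have : (q.num.toNat : ℤ) - ((-q.num).toNat : ℤ) = q.num := by omega
    exact_mod_cast this
  rw [h, Rat.num_div_den]

lemma pn_eq (q : ℚ) : pn q = if (code q).unpair.1 % 2 = 0 then (code q).unpair.1 / 2 else 0 := by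
  unfold pn
  rw [code_eq, Nat.unpair_pair]
  show q.num.toNat = if encode q.num % 2 = 0 then encode q.num / 2 else 0
  cases h : q.num with
  | ofNat n =>
    have : encode (Int.ofNat n) = 2 * n := enc_ofNat n
    rw [this]
    have h2 : (Int.ofNat n).toNat = n := rfl
    rw [h2, if_pos (by omega)]; omega
  | negSucc n =>
    rw [enc_negSucc, if_neg (by omega)]; rfl

lemma nn_eq (q : ℚ) :
    nn q = if (code q).unpair.1 % 2 = 0 then 0 else ((code q).unpair.1 + 1) / 2 := by
  unfold nn
  rw [code_eq, Nat.unpair_pair]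
  show (-q.num).toNat = if encode q.num % 2 = 0 then 0 else (encode q.num + 1) / 2
  cases h : q.num with
  | ofNat n =>
    have : encode (Int.ofNat n) = 2 * n := enc_ofNat n
    rw [this, if_pos (by omega)]
    have h2 : (-(Int.ofNat n)).toNat = 0 := by
      have : (Int.ofNat n : ℤ) = n := rfl
      omega
    exact h2
  | negSucc n =>
    rw [enc_negSucc, if_neg (by omega)]
    have h2 : (-(Int.negSucc n)).toNat = n + 1 := rfl
    rw [h2]; omega

lemma den_eq (q : ℚ) : q.den = (code q).unpair.2 := by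
  rw [code_eq, Nat.unpair_pair]

lemma prim_c1 : Primrec (fun q : ℚ => (code q).unpair.1) :=
  Primrec.fst.comp (Primrec.unpair.comp prim_code)

lemma prim_even : PrimrecPred (fun q : ℚ => (code q).unpair.1 % 2 = 0) :=
  Primrec.eq.comp (Primrec.nat_mod.comp prim_c1 (Primrec.const 2)) (Primrec.const 0)

lemma prim_pn : Primrec pn :=
  (Primrec.ite prim_even (Primrec.nat_div.comp prim_c1 (Primrec.const 2))
    (Primrec.const 0)).of_eq fun q => (pn_eq q).symm

lemma prim_nn : Primrec nn :=
  (Primrec.ite prim_even (Primrec.const 0) (Primrec.nat_div.comp (Primrec.succ.comp prim_c1)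
    (Primrec.const 2))).of_eq fun q => (nn_eq q).symm

lemma prim_den : Primrec (fun q : ℚ => q.den) :=
  (Primrec.snd.comp (Primrec.unpair.comp prim_code)).of_eq fun q => (den_eq q).symm

/-! ### building rationals -/

/-- the rational `(a - b) / (d + 1)` -/
def mkq (a b d : ℕ) : ℚ := ((a : ℚ) - b) / ((d : ℚ) + 1)

lemma code_mkq (a b d : ℕ) : code (mkq a b d) =
    if b ≤ a then Nat.pair (2 * ((a - b) / Nat.gcd (a - b) (d + 1)))
        ((d + 1) / Nat.gcd (a - b) (d + 1))
      else Nat.pair (2 * ((b - a) / Nat.gcd (b - a) (d + 1)) - 1)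
        ((d + 1) / Nat.gcd (b - a) (d + 1)) := by
  have h1 : mkq a b d = mkRat ((a : ℤ) - b) (d + 1) := by
    rw [Rat.mkRat_eq_div]; unfold mkq; push_cast; ring
  have h2 : (mkq a b d).num = ((a : ℤ) - b) / ((((a : ℤ) - b).natAbs.gcd (d + 1) : ℕ) : ℤ)
      ∧ (mkq a b d).den = (d + 1) / ((a : ℤ) - b).natAbs.gcd (d + 1) := by
    rw [h1, ← Rat.normalize_eq_mkRat (by omega), Rat.normalize_eq]
    exact ⟨rfl, rfl⟩
  rw [code_eq, h2.1, h2.2]
  split_ifs with h
  · have e : ((a : ℤ) - b) = ((a - b : ℕ) : ℤ) := by omega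
    rw [e, Int.natAbs_natCast, ← Int.natCast_div, enc_ofNat]
  · push Not at h
    have e : ((a : ℤ) - b) = -((b - a : ℕ) : ℤ) := by omega
    rw [e, Int.natAbs_neg, Int.natAbs_natCast]
    set g := Nat.gcd (b - a) (d + 1) with hg
    have hgd : g ∣ (b - a) := Nat.gcd_dvd_left _ _
    have hg0 : 0 < g := Nat.gcd_pos_of_pos_right _ (by omega)
    obtain ⟨m, hm⟩ := hgd
    have hm0 : 0 < m := by
      rcases Nat.eq_zero_or_pos m with h0 | h0
      · rw [h0, mul_zero] at hm; omega
      · exact h0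
    have e2 : (-((b - a : ℕ) : ℤ)) / (g : ℤ) = Int.negSucc (m - 1) := by
      rw [hm]
      push_cast
      rw [← mul_neg, Int.mul_ediv_cancel_left _ (by positivity)]
      omega
    rw [e2, enc_negSucc, hm, Nat.mul_div_cancel_left _ hg0]
    congr 1
    omega

lemma prim_mkq : Primrec (fun p : ℕ × ℕ × ℕ => mkq p.1 p.2.1 p.2.2) := by
  rw [← Primrec.encode_iff]
  have ha : Primrec (fun p : ℕ × ℕ × ℕ => p.1) := Primrec.fst
  have hb : Primrec (fun p : ℕ × ℕ × ℕ => p.2.1) := Primrec.fst.comp Primrec.snd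
  have hd : Primrec (fun p : ℕ × ℕ × ℕ => p.2.2 + 1) :=
    Primrec.succ.comp (Primrec.snd.comp Primrec.snd)
  have hab : Primrec (fun p : ℕ × ℕ × ℕ => p.1 - p.2.1) := Primrec.nat_sub.comp ha hb
  have hba : Primrec (fun p : ℕ × ℕ × ℕ => p.2.1 - p.1) := Primrec.nat_sub.comp hb ha
  have hg1 := prim_gcd.comp hab hd
  have hg2 := prim_gcd.comp hba hd
  have h := Primrec.ite (Primrec.nat_le.comp hb ha)
    (Primrec₂.natPair.comp (Primrec.nat_mul.comp (Primrec.const 2) (Primrec.nat_div.comp hab hg1))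
      (Primrec.nat_div.comp hd hg1))
    (Primrec₂.natPair.comp (Primrec.nat_sub.comp (Primrec.nat_mul.comp (Primrec.const 2)
      (Primrec.nat_div.comp hba hg2)) (Primrec.const 1)) (Primrec.nat_div.comp hd hg2))
  refine (prim_cnt.comp h).of_eq fun p => ?_
  show _ = enc (mkq p.1 p.2.1 p.2.2)
  rw [encode_eq, code_mkq]

section

variable {α : Type*} [Primcodable α]

lemma prim_mk3 {a b d : α → ℕ} (ha : Primrec a) (hb : Primrec b) (hd : Primrec d) :
    Primrec (fun x => mkq (a x) (b x) (d x)) :=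
  prim_mkq.comp (ha.pair (hb.pair hd))

lemma prim_natCast {f : α → ℕ} (hf : Primrec f) : Primrec (fun x => (f x : ℚ)) :=
  (prim_mk3 hf (Primrec.const 0) (Primrec.const 0)).of_eq fun x => by unfold mkq; simp

lemma prim_neg {f : α → ℚ} (hf : Primrec f) : Primrec (fun x => - f x) := by
  refine (prim_mk3 (prim_nn.comp hf) (prim_pn.comp hf)
    (Primrec.pred.comp (prim_den.comp hf))).of_eq fun x => ?_
  unfold mkq
  have h1 : (((f x).den.pred : ℕ) : ℚ) + 1 = (f x).den := by
    have := (f x).den_pos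
    rw [Nat.pred_eq_sub_one, Nat.cast_sub this]; push_cast; ring
  rw [h1]
  conv_rhs => rw [q_eq (f x)]
  ring

lemma prim_add {f g : α → ℚ} (hf : Primrec f) (hg : Primrec g) :
    Primrec (fun x => f x + g x) := by
  have pf := prim_pn.comp hf
  have pg := prim_pn.comp hg
  have nf := prim_nn.comp hf
  have ng := prim_nn.comp hg
  have df := prim_den.comp hf
  have dg := prim_den.comp hg
  refine (prim_mk3 (Primrec.nat_add.comp (Primrec.nat_mul.comp pf dg) (Primrec.nat_mul.comp pg df))
    (Primrec.nat_add.comp (Primrec.nat_mul.comp nf dg) (Primrec.nat_mul.comp ng df))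
    (Primrec.pred.comp (Primrec.nat_mul.comp df dg))).of_eq fun x => ?_
  unfold mkq
  have h1 : ((((f x).den * (g x).den).pred : ℕ) : ℚ) + 1 = (f x).den * (g x).den := by
    have := Nat.mul_pos (f x).den_pos (g x).den_pos
    rw [Nat.pred_eq_sub_one, Nat.cast_sub this]; push_cast; ring
  have hf0 : ((f x).den : ℚ) ≠ 0 := by exact_mod_cast (f x).den_ne_zero
  have hg0 : ((g x).den : ℚ) ≠ 0 := by exact_mod_cast (g x).den_ne_zero
  have e := q_eq (f x)
  have e' := q_eq (g x)
  rw [h1]
  conv_rhs => rw [e, e']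
  push_cast
  field_simp
  ring

lemma prim_mul {f g : α → ℚ} (hf : Primrec f) (hg : Primrec g) :
    Primrec (fun x => f x * g x) := by
  have pf := prim_pn.comp hf
  have pg := prim_pn.comp hg
  have nf := prim_nn.comp hf
  have ng := prim_nn.comp hg
  have df := prim_den.comp hf
  have dg := prim_den.comp hg
  refine (prim_mk3 (Primrec.nat_add.comp (Primrec.nat_mul.comp pf pg) (Primrec.nat_mul.comp nf ng))
    (Primrec.nat_add.comp (Primrec.nat_mul.comp pf ng) (Primrec.nat_mul.comp nf pg))
    (Primrec.pred.comp (Primrec.nat_mul.comp df dg))).of_eq fun x => ?_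
  unfold mkq
  have h1 : ((((f x).den * (g x).den).pred : ℕ) : ℚ) + 1 = (f x).den * (g x).den := by
    have := Nat.mul_pos (f x).den_pos (g x).den_pos
    rw [Nat.pred_eq_sub_one, Nat.cast_sub this]; push_cast; ring
  have hf0 : ((f x).den : ℚ) ≠ 0 := by exact_mod_cast (f x).den_ne_zero
  have hg0 : ((g x).den : ℚ) ≠ 0 := by exact_mod_cast (g x).den_ne_zero
  have e := q_eq (f x)
  have e' := q_eq (g x)
  rw [h1]
  conv_rhs => rw [e, e']
  push_cast
  field_simp
  ring

lemma prim_sub {f g : α → ℚ} (hf : Primrec f) (hg : Primrec g) :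
    Primrec (fun x => f x - g x) :=
  (prim_add hf (prim_neg hg)).of_eq fun x => (sub_eq_add_neg _ _).symm

lemma prim_qpow {f : α → ℚ} {n : α → ℕ} (hf : Primrec f) (hn : Primrec n) :
    Primrec (fun x => f x ^ n x) := by
  have h : Primrec (fun a => Nat.rec (motive := fun _ => ℚ) 1 (fun _ s => s * f a) (n a)) := by
    refine Primrec.nat_rec' (h := fun a p => p.2 * f a) hn (Primrec.const (1:ℚ)) ?_
    exact (prim_mul (Primrec.snd.comp Primrec.snd) (hf.comp Primrec.fst)).to₂
  refine h.of_eq fun a => ?_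
  induction n a with
  | zero => simp
  | succ n ih => rw [pow_succ, ← ih]

/-- division by a natural number -/
lemma prim_divNat {f : α → ℚ} {n : α → ℕ} (hf : Primrec f) (hn : Primrec n)
    (h0 : ∀ x, 0 < n x) : Primrec (fun x => f x / n x) := by
  have h : Primrec (fun x => mkq 1 0 ((n x).pred)) :=
    prim_mk3 (Primrec.const 1) (Primrec.const 0) (Primrec.pred.comp hn)
  refine (prim_mul hf h).of_eq fun x => ?_
  unfold mkq
  have h1 : (((n x).pred : ℕ) : ℚ) + 1 = n x := by
    have := h0 x
    rw [Nat.pred_eq_sub_one, Nat.cast_sub this]; push_cast; ring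
  rw [h1]
  push_cast
  ring

end

end Crest.Agent.H4.QComp
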