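import Mathlib
import Crest.Agent.H4.Fabius
import Crest.Agent.H4.QComp

/-! Effective smooth functions of one real variable. -/

set_option autoImplicit false
set_option linter.unusedVariables false

namespace Crest.Agent.H4

open Fab QComp

/-- effective smooth function of one variable -/
def Eff1 (g : ℝ → ℝ) : Prop := ContDiff ℝ (⊤ : ℕ∞) g ∧
  ∃ (E : ℕ × ℚ × ℕ → ℚ) (B : ℕ → ℕ), Primrec E ∧ Primrec B ∧
    (∀ (k : ℕ) (q : ℚ) (n : ℕ), |iteratedDeriv k g q - E (k, q, n)| ≤ 1 / ((n : ℝ) + 1)) ∧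
    ∀ (k : ℕ) (x : ℝ), |iteratedDeriv k g x| ≤ B k

/-! ### the derivatives of `F` -/

/-- signed shifts -/
def shifts : ℕ → List (Bool × ℕ)
  | 0 => [(true, 0)]
  | k + 1 => (shifts k).flatMap (fun p => [(p.1, 3 * p.2), (!p.1, 3 * p.2 + 1)])

lemma shifts_length (k : ℕ) : (shifts k).length = 2 ^ k := by
  induction k with
  | zero => rfl
  | succ k ih =>
    rw [shifts, List.length_flatMap]
    simp only [List.length_cons, List.length_nil]
    rw [List.map_const', List.sum_replicate, ih, pow_succ]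
    simp

def sgn (b : Bool) : ℚ := if b then 1 else -1

lemma sgn_not (b : Bool) : sgn (!b) = - sgn b := by cases b <;> simp [sgn]

lemma abs_sgn (b : Bool) : |(sgn b : ℝ)| = 1 := by cases b <;> simp [sgn]

/-- weights `3^{k(k+1)/2}` -/
def wt : ℕ → ℕ
  | 0 => 1
  | k + 1 => wt k * 3 ^ (k + 1)

lemma wt_pos (k : ℕ) : 0 < wt k := by
  induction k with
  | zero => exact one_pos
  | succ k ih => exact Nat.mul_pos ih (by positivity)

noncomputable def comb (k : ℕ) (L : List (Bool × ℕ)) (x : ℝ) : ℝ :=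
  (L.map fun p => (sgn p.1 : ℝ) * F (3 ^ k * x - 2 * p.2)).sum

lemma comb_hasDeriv (k : ℕ) (L : List (Bool × ℕ)) (x : ℝ) :
    HasDerivAt (comb k L) (3 ^ (k + 1) / 2 *
      comb (k + 1) (L.flatMap (fun p => [(p.1, 3 * p.2), (!p.1, 3 * p.2 + 1)])) x) x := by
  induction L with
  | nil =>
    have e : comb k [] = fun _ => (0:ℝ) := by funext y; simp [comb]
    have e2 : comb (k + 1) (([] : List (Bool × ℕ)).flatMap
      (fun p => [(p.1, 3 * p.2), (!p.1, 3 * p.2 + 1)])) x = 0 := by simp [comb]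
    rw [e, e2, mul_zero]
    exact hasDerivAt_const _ _
  | cons p L ih =>
    have e : comb k (p :: L) = fun y => (sgn p.1 : ℝ) * F (3 ^ k * y - 2 * p.2) + comb k L y := by
      funext y; simp [comb]
    have e2 : comb (k + 1) ((p :: L).flatMap
        (fun p => [(p.1, 3 * p.2), (!p.1, 3 * p.2 + 1)])) x
        = (sgn p.1 : ℝ) * F (3 ^ (k + 1) * x - 2 * ((3 * p.2 : ℕ) : ℝ))
          + (-(sgn p.1 : ℝ) * F (3 ^ (k + 1) * x - 2 * ((3 * p.2 + 1 : ℕ) : ℝ))
          + comb (k + 1) (L.flatMap (fun p => [(p.1, 3 * p.2), (!p.1, 3 * p.2 + 1)])) x) := by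
      simp [comb, sgn_not]
    rw [e, e2]
    have h1 : HasDerivAt (fun y : ℝ => 3 ^ k * y - 2 * (p.2 : ℝ)) (3 ^ k) x := by
      simpa using ((hasDerivAt_id x).const_mul ((3:ℝ) ^ k)).sub_const (2 * (p.2 : ℝ))
    have h2 := HasDerivAt.comp (h₂ := F) x (F_hasDeriv (3 ^ k * x - 2 * (p.2 : ℝ))) h1
    have h3 := (h2.const_mul (sgn p.1 : ℝ)).add ih
    refine h3.congr_deriv ?_
    have e3 : 3 * (3 ^ k * x - 2 * (p.2 : ℝ)) = 3 ^ (k + 1) * x - 2 * ((3 * p.2 : ℕ) : ℝ) := by
      push_cast; ring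
    have e4 : 3 * (3 ^ k * x - 2 * (p.2 : ℝ)) - 2
        = 3 ^ (k + 1) * x - 2 * ((3 * p.2 + 1 : ℕ) : ℝ) := by
      push_cast; ring
    rw [e4, e3]
    ring

lemma iter_F (k : ℕ) : iteratedDeriv k F = fun x => (wt k : ℝ) / 2 ^ k * comb k (shifts k) x := by
  induction k with
  | zero => funext x; simp [wt, comb, shifts, sgn]
  | succ k ih =>
    rw [iteratedDeriv_succ, ih]
    funext x
    rw [((comb_hasDeriv k (shifts k) x).const_mul _).deriv, shifts, wt]
    push_cast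
    ring

lemma comb_bound (k : ℕ) (L : List (Bool × ℕ)) (x : ℝ) : |comb k L x| ≤ L.length := by
  induction L with
  | nil => simp [comb]
  | cons p L ih =>
    have e : comb k (p :: L) x = (sgn p.1 : ℝ) * F (3 ^ k * x - 2 * p.2) + comb k L x := by
      simp [comb]
    rw [e, List.length_cons]
    push_cast
    refine (abs_add_le _ _).trans ?_
    rw [abs_mul, abs_sgn, one_mul, abs_of_nonneg (F_good.nonneg _)]
    have := F_good.le_one (3 ^ k * x - 2 * p.2)
    linarith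

lemma iter_F_bound (k : ℕ) (x : ℝ) : |iteratedDeriv k F x| ≤ wt k := by
  rw [iter_F]
  have h := comb_bound k (shifts k) x
  rw [shifts_length] at h
  push_cast at h
  have h1 : (0:ℝ) ≤ (wt k : ℝ) / 2 ^ k := by positivity
  show |(wt k : ℝ) / 2 ^ k * comb k (shifts k) x| ≤ _
  rw [abs_mul, abs_of_nonneg h1]
  calc (wt k : ℝ) / 2 ^ k * |comb k (shifts k) x| ≤ (wt k : ℝ) / 2 ^ k * 2 ^ k :=
        mul_le_mul_of_nonneg_left h h1
    _ = wt k := by field_simp

/-! ### counting formula -/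

/-- weighted digit sum -/
def wd (M K t : ℕ) : ℕ := ∑ l ∈ Finset.range K, 3 ^ l * ((t / M ^ l) % M)

lemma wd_succ (M K i s : ℕ) (hM : 0 < M) (hi : i < M) (hs : s < M ^ K) :
    wd M (K + 1) (s + M ^ K * i) = wd M K s + 3 ^ K * i := by
  unfold wd
  rw [Finset.sum_range_succ]
  congr 1
  · refine Finset.sum_congr rfl fun l hl => ?_
    rw [Finset.mem_range] at hl
    congr 1
    have h1 : M ^ K * i = M ^ l * (M * (M ^ (K - l - 1) * i)) := by
      have : M ^ K = M ^ l * (M * M ^ (K - l - 1)) := by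
        rw [← pow_succ', ← pow_add]; congr 1; omega
      rw [this]; ring
    rw [h1, Nat.add_mul_div_left _ _ (by positivity), Nat.add_mul_mod_self_left]
  · congr 1
    rw [Nat.add_mul_div_left _ _ (by positivity), Nat.div_eq_of_lt hs, zero_add,
      Nat.mod_eq_of_lt hi]

lemma sum_range_mul' (f : ℕ → ℝ) (B A : ℕ) :
    ∑ t ∈ Finset.range (B * A), f t = ∑ i ∈ Finset.range A, ∑ s ∈ Finset.range B, f (s + B * i) := by
  induction A with
  | zero => simp
  | succ A ih =>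
    rw [Nat.mul_succ, Finset.sum_range_add, ih, Finset.sum_range_succ]
    congr 1
    refine Finset.sum_congr rfl fun s _ => ?_
    rw [add_comm]

open Classical in
lemma Gd_count (M : ℕ) (hM : 0 < M) (K : ℕ) (x : ℝ) :
    Gd M K x = (∑ t ∈ Finset.range (M ^ K),
      if 2 * (wd M K t : ℝ) ≤ M * 3 ^ K * x then (1:ℝ) else 0) / (M:ℝ) ^ K := by
  have hM' : (0:ℝ) < M := by positivity
  induction K generalizing x with
  | zero =>
    show (if 0 ≤ x then (1:ℝ) else 0) = _
    have e : (2 * (wd M 0 0 : ℝ) ≤ M * 3 ^ 0 * x) ↔ 0 ≤ x := by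
      simp only [wd, Finset.range_zero, Finset.sum_empty, Nat.cast_zero, mul_zero, pow_zero,
        mul_one]
      constructor
      · intro h; by_contra hc; push Not at hc
        have := mul_neg_of_pos_of_neg hM' hc
        linarith
      · intro h; positivity
    simp only [pow_zero, Finset.range_one, Finset.sum_singleton, div_one]
    rw [pow_zero] at e
    by_cases h : 0 ≤ x
    · rw [if_pos h, if_pos (e.mpr h)]
    · rw [if_neg h, if_neg (fun h2 => h (e.mp h2))]
  | succ K ih =>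
    show avgM M (Gd M K) x = _
    unfold avgM
    simp_rw [ih]
    rw [pow_succ M K, sum_range_mul', ← Finset.sum_div, div_div, ← pow_succ]
    congr 1
    refine Finset.sum_congr rfl fun i hi => Finset.sum_congr rfl fun s hs => ?_
    rw [Finset.mem_range] at hi hs
    rw [wd_succ M K i s hM hi hs]
    have e : (2 * (wd M K s : ℝ) ≤ M * 3 ^ K * (3 * x - 2 * i / M))
        ↔ (2 * ((wd M K s + 3 ^ K * i : ℕ) : ℝ) ≤ M * 3 ^ (K + 1) * x) := by
      have e2 : (M:ℝ) * 3 ^ K * (3 * x - 2 * i / M) = M * 3 ^ (K + 1) * x - 2 * (3 ^ K * i) := by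
        field_simp
        ring
      rw [e2]
      push_cast
      constructor <;> intro h <;> linarith
    by_cases h : 2 * (wd M K s : ℝ) ≤ M * 3 ^ K * (3 * x - 2 * i / M)
    · rw [if_pos h, if_pos (e.mp h)]
    · rw [if_neg h, if_neg (fun h2 => h (e.mpr h2))]

/-- the counting function -/
def cntD (M K a b d : ℕ) : ℕ := ∑ t ∈ Finset.range (M ^ K),
  if 2 * wd M K t * d + M * 3 ^ K * b ≤ M * 3 ^ K * a then 1 else 0

/-- rational approximation of `F` -/
def EF (q : ℚ) (n : ℕ) : ℚ :=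
  (cntD (3 * (n + 1)) (3 * (n + 1)) (pn q) (nn q) q.den : ℚ)
    / (((3 * (n + 1)) ^ (3 * (n + 1)) : ℕ) : ℚ)

lemma EF_near (q : ℚ) (n : ℕ) : |F q - EF q n| ≤ 1 / ((n : ℝ) + 1) := by
  set M := 3 * (n + 1) with hM
  have hM0 : 0 < M := by omega
  have h1 : (EF q n : ℝ) = Gd M M q := by
    rw [Gd_count M hM0]
    unfold EF
    rw [← hM]
    push_cast
    congr 1
    unfold cntD
    push_cast
    refine Finset.sum_congr rfl fun t _ => ?_
    have hd : (0:ℝ) < q.den := by exact_mod_cast q.den_pos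
    have hq : (q : ℝ) = ((pn q : ℝ) - nn q) / q.den := by
      have := q_eq q
      have h2 : (q : ℝ) = ((((pn q : ℚ) - nn q) / q.den : ℚ) : ℝ) := by rw [← this]
      rw [h2]; push_cast; ring
    have e : (2 * (wd M M t : ℝ) ≤ M * 3 ^ M * q)
        ↔ (2 * wd M M t * q.den + M * 3 ^ M * nn q ≤ M * 3 ^ M * pn q) := by
      rw [hq, mul_div_assoc', le_div_iff₀ hd]
      have : (2 * wd M M t * q.den + M * 3 ^ M * nn q ≤ M * 3 ^ M * pn q)
        ↔ ((2 * wd M M t * q.den + M * 3 ^ M * nn q : ℕ) : ℝ) ≤ ((M * 3 ^ M * pn q : ℕ) : ℝ) := by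
        exact Nat.cast_le.symm
      rw [this]
      push_cast
      constructor <;> intro h <;> linarith
    by_cases h : 2 * (wd M M t : ℝ) ≤ M * 3 ^ M * q
    · rw [if_pos h, if_pos (e.mp h)]
    · rw [if_neg h, if_neg (fun h2 => h (e.mpr h2))]
  rw [h1]
  refine (Gd_near M hM0 M q).trans ?_
  have hMr : (M : ℝ) = 3 * (n + 1) := by rw [hM]; push_cast; ring
  have h2 : ((1:ℝ)/3) ^ M ≤ 1 / M := by
    rw [one_div_pow]
    apply one_div_le_one_div_of_le (by positivity)
    have : M < 3 ^ M := Nat.lt_pow_self (by norm_num)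
    exact_mod_cast this.le
  have h3 : 3/2 * ((1/3 : ℝ) ^ M + 1 / M) ≤ 3/2 * (1 / M + 1 / M) := by
    have := h2; linarith
  refine h3.trans (le_of_eq ?_)
  rw [hMr]
  field_simp
  ring

lemma prim_wd : Primrec (fun p : (ℕ × ℕ) × ℕ => wd p.1.1 p.1.2 p.2) := by
  unfold wd
  refine prim_sum (Primrec.snd.comp Primrec.fst) ?_
  have hl : Primrec (fun q : ((ℕ × ℕ) × ℕ) × ℕ => q.2) := Primrec.snd
  have hM : Primrec (fun q : ((ℕ × ℕ) × ℕ) × ℕ => q.1.1.1) :=
    Primrec.fst.comp (Primrec.fst.comp Primrec.fst)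
  have ht : Primrec (fun q : ((ℕ × ℕ) × ℕ) × ℕ => q.1.2) := Primrec.snd.comp Primrec.fst
  exact (Primrec.nat_mul.comp (prim_pow.comp (Primrec.const 3) hl)
    (Primrec.nat_mod.comp (Primrec.nat_div.comp ht (prim_pow.comp hM hl)) hM)).to₂

lemma prim_EF : Primrec (fun p : ℚ × ℕ => EF p.1 p.2) := by
  have hM : Primrec (fun p : ℚ × ℕ => 3 * (p.2 + 1)) :=
    Primrec.nat_mul.comp (Primrec.const 3) (Primrec.succ.comp Primrec.snd)
  have hMM : Primrec (fun p : ℚ × ℕ => (3 * (p.2 + 1)) ^ (3 * (p.2 + 1))) := prim_pow.comp hM hM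
  have h3 : Primrec (fun p : ℚ × ℕ => 3 * (p.2 + 1) * 3 ^ (3 * (p.2 + 1))) :=
    Primrec.nat_mul.comp hM (prim_pow.comp (Primrec.const 3) hM)
  have hcnt : Primrec (fun p : ℚ × ℕ =>
      cntD (3 * (p.2 + 1)) (3 * (p.2 + 1)) (pn p.1) (nn p.1) p.1.den) := by
    unfold cntD
    refine prim_sum hMM ?_
    have hw : Primrec (fun q : (ℚ × ℕ) × ℕ => wd (3 * (q.1.2 + 1)) (3 * (q.1.2 + 1)) q.2) :=
      prim_wd.comp (((hM.comp Primrec.fst).pair (hM.comp Primrec.fst)).pair Primrec.snd)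
    have hd : Primrec (fun q : (ℚ × ℕ) × ℕ => q.1.1.den) :=
      prim_den.comp (Primrec.fst.comp Primrec.fst)
    have ha : Primrec (fun q : (ℚ × ℕ) × ℕ => pn q.1.1) :=
      prim_pn.comp (Primrec.fst.comp Primrec.fst)
    have hb : Primrec (fun q : (ℚ × ℕ) × ℕ => nn q.1.1) :=
      prim_nn.comp (Primrec.fst.comp Primrec.fst)
    have h3' := h3.comp (Primrec.fst (α := ℚ × ℕ) (β := ℕ))
    exact (Primrec.ite (Primrec.nat_le.comp (Primrec.nat_add.comp
      (Primrec.nat_mul.comp (Primrec.nat_mul.comp (Primrec.const 2) hw) hd)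
      (Primrec.nat_mul.comp h3' hb)) (Primrec.nat_mul.comp h3' ha))
      (Primrec.const 1) (Primrec.const 0)).to₂
  exact prim_divNat (prim_natCast hcnt) hMM (fun p => by positivity)

/-! ### effectivity of `F` -/

lemma prim_shifts : Primrec shifts := by
  have h : Primrec (fun k : ℕ => Nat.rec (motive := fun _ => List (Bool × ℕ)) [(true, 0)]
      (fun _ L => L.flatMap (fun p => [(p.1, 3 * p.2), (!p.1, 3 * p.2 + 1)])) k) := by
    refine Primrec.nat_rec₁ (f := fun _ (L : List (Bool × ℕ)) => L.flatMap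
      (fun p : Bool × ℕ => [(p.1, 3 * p.2), (!p.1, 3 * p.2 + 1)])) [(true, 0)] ?_
    refine (Primrec.list_flatMap (f := fun q : ℕ × List (Bool × ℕ) => q.2)
      (g := fun _ (p : Bool × ℕ) => [(p.1, 3 * p.2), (!p.1, 3 * p.2 + 1)])
      Primrec.snd ?_).to₂
    have hb : Primrec (fun q : (ℕ × List (Bool × ℕ)) × (Bool × ℕ) => q.2.1) :=
      Primrec.fst.comp Primrec.snd
    have hm : Primrec (fun q : (ℕ × List (Bool × ℕ)) × (Bool × ℕ) => 3 * q.2.2) :=
      Primrec.nat_mul.comp (Primrec.const 3) (Primrec.snd.comp Primrec.snd)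
    exact (Primrec.list_cons.comp (hb.pair hm) (Primrec.list_cons.comp
      ((Primrec.not.comp hb).pair (Primrec.succ.comp hm)) (Primrec.const []))).to₂
  refine h.of_eq fun k => ?_
  induction k with
  | zero => rfl
  | succ k ih => rw [shifts, ← ih]

lemma prim_wt : Primrec wt := by
  have h : Primrec (fun k : ℕ => Nat.rec (motive := fun _ => ℕ) 1
      (fun k w => w * 3 ^ (k + 1)) k) := by
    refine Primrec.nat_rec₁ (f := fun k w => w * 3 ^ (k + 1)) 1 ?_
    exact (Primrec.nat_mul.comp Primrec.snd (prim_pow.comp (Primrec.const 3)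
      (Primrec.succ.comp Primrec.fst))).to₂
  refine h.of_eq fun k => ?_
  induction k with
  | zero => rfl
  | succ k ih => rw [wt, ← ih]

lemma prim_lsum : Primrec (fun L : List ℚ => L.sum) := by
  have h : Primrec (fun L : List ℚ => L.foldr (fun a s => a + s) 0) := by
    refine Primrec.list_foldr (h := fun _ p => p.1 + p.2) Primrec.id (Primrec.const 0) ?_
    exact (prim_add (Primrec.fst.comp Primrec.snd) (Primrec.snd.comp Primrec.snd)).to₂
  exact h.of_eq fun L => rfl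

/-- approximations of the derivatives of `F` -/
def EFk (p : ℕ × ℚ × ℕ) : ℚ :=
  (wt p.1 : ℚ) / ((2 ^ p.1 : ℕ) : ℚ) * ((shifts p.1).map fun s =>
    sgn s.1 * EF (3 ^ p.1 * p.2.1 - 2 * s.2) (wt p.1 * (p.2.2 + 1))).sum

lemma prim_EFk : Primrec EFk := by
  have hk : Primrec (fun p : ℕ × ℚ × ℕ => p.1) := Primrec.fst
  have hw : Primrec (fun p : ℕ × ℚ × ℕ => wt p.1) := prim_wt.comp hk
  refine prim_mul (prim_divNat (prim_natCast hw) (prim_pow.comp (Primrec.const 2) hk)
    (fun p => by positivity)) (prim_lsum.comp (Primrec.list_map (prim_shifts.comp hk) ?_))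
  have hs : Primrec (fun q : (ℕ × ℚ × ℕ) × (Bool × ℕ) => sgn q.2.1) :=
    (Primrec.dom_bool sgn).comp (Primrec.fst.comp Primrec.snd)
  have hk2 : Primrec (fun q : (ℕ × ℚ × ℕ) × (Bool × ℕ) => q.1.1) :=
    Primrec.fst.comp Primrec.fst
  have hq : Primrec (fun q : (ℕ × ℚ × ℕ) × (Bool × ℕ) => q.1.2.1) :=
    Primrec.fst.comp (Primrec.snd.comp Primrec.fst)
  have hn : Primrec (fun q : (ℕ × ℚ × ℕ) × (Bool × ℕ) => wt q.1.1 * (q.1.2.2 + 1)) :=
    Primrec.nat_mul.comp (prim_wt.comp hk2)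
      (Primrec.succ.comp (Primrec.snd.comp (Primrec.snd.comp Primrec.fst)))
  have hm : Primrec (fun q : (ℕ × ℚ × ℕ) × (Bool × ℕ) => (q.2.2 : ℚ)) :=
    prim_natCast (Primrec.snd.comp Primrec.snd)
  exact (prim_mul hs (prim_EF.comp ((prim_sub (prim_mul (prim_qpow (Primrec.const 3) hk2) hq)
    (prim_mul (Primrec.const 2) hm)).pair hn))).to₂

lemma list_near (L : List (Bool × ℕ)) (k : ℕ) (q : ℚ) (n : ℕ) :
    |comb k L q - (((L.map fun s => sgn s.1 * EF (3 ^ k * q - 2 * s.2) n).sum : ℚ) : ℝ)|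
      ≤ L.length * (1 / ((n : ℝ) + 1)) := by
  induction L with
  | nil => simp [comb]
  | cons s L ih =>
    have e : comb k (s :: L) q = (sgn s.1 : ℝ) * F (3 ^ k * q - 2 * s.2) + comb k L q := by
      simp [comb]
    rw [e, List.map_cons, List.sum_cons, List.length_cons]
    have h := EF_near (3 ^ k * q - 2 * s.2) n
    push_cast at h ih ⊢
    have e2 : (sgn s.1 : ℝ) * F (3 ^ k * q - 2 * s.2) + comb k L q
        - ((sgn s.1 : ℝ) * EF (3 ^ k * q - 2 * s.2) n
          + (List.map Rat.cast (List.map (fun s => sgn s.1 * EF (3 ^ k * q - 2 * s.2) n) L)).sum)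
        = (sgn s.1 : ℝ) * (F (3 ^ k * q - 2 * s.2) - EF (3 ^ k * q - 2 * s.2) n)
        + (comb k L q - (List.map Rat.cast
            (List.map (fun s => sgn s.1 * EF (3 ^ k * q - 2 * s.2) n) L)).sum) := by ring
    rw [e2]
    refine (abs_add_le _ _).trans ?_
    rw [abs_mul, abs_sgn, one_mul]
    linarith

theorem eff_F : Eff1 F := by
  refine ⟨F_smooth, EFk, wt, prim_EFk, prim_wt, fun k q n => ?_, iter_F_bound⟩
  rw [iter_F]
  show |(wt k : ℝ) / 2 ^ k * comb k (shifts k) q - (EFk (k, q, n) : ℝ)| ≤ _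
  have h := list_near (shifts k) k q (wt k * (n + 1))
  rw [shifts_length] at h
  have hw : (0:ℝ) < wt k := by exact_mod_cast wt_pos k
  have e : (EFk (k, q, n) : ℝ) = (wt k : ℝ) / 2 ^ k * ((((shifts k).map fun s =>
    sgn s.1 * EF (3 ^ k * q - 2 * s.2) (wt k * (n + 1))).sum : ℚ) : ℝ) := by
    unfold EFk
    push_cast
    rfl
  rw [e, ← mul_sub, abs_mul, abs_of_nonneg (by positivity : (0:ℝ) ≤ (wt k : ℝ) / 2 ^ k)]
  calc (wt k : ℝ) / 2 ^ k * _ ≤ (wt k : ℝ) / 2 ^ k * (((2 ^ k : ℕ) : ℝ) *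
        (1 / (((wt k * (n + 1) : ℕ) : ℝ) + 1))) := mul_le_mul_of_nonneg_left h (by positivity)
    _ = wt k / (wt k * (n + 1) + 1) := by push_cast; field_simp
    _ ≤ 1 / ((n : ℝ) + 1) := by
      rw [div_le_div_iff₀ (by positivity) (by positivity)]
      nlinarith

end Crest.Agent.H4
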