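import Mathlib
import Crest.Agent.H4.EffOne

/-! Closure properties of effective smooth functions of one real variable. -/

set_option autoImplicit false
set_option linter.unusedVariables false

namespace Crest.Agent.H4

open Fab QComp Filter Topology

/-- bounded support -/
def Supp (g : ℝ → ℝ) : Prop := ∃ R : ℕ, ∀ x : ℝ, (R : ℝ) < |x| → g x = 0

lemma Eff1.smooth {g : ℝ → ℝ} (h : Eff1 g) : ContDiff ℝ (⊤ : ℕ∞) g := h.1

lemma diff_iter {g : ℝ → ℝ} (h : ContDiff ℝ (⊤ : ℕ∞) g) (k : ℕ) :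
    Differentiable ℝ (iteratedDeriv k g) :=
  (h.differentiable_iteratedDeriv k (by exact_mod_cast (WithTop.coe_lt_top k)))

lemma Eff1.deriv {g : ℝ → ℝ} (h : Eff1 g) : Eff1 (deriv g) := by
  obtain ⟨hs, E, B, hE, hB, h1, h2⟩ := h
  have hs' : ContDiff ℝ (⊤ : ℕ∞) (_root_.deriv g) := by
    have : ContDiff ℝ ((⊤ : ℕ∞) + 1 : WithTop ℕ∞) g := hs
    exact (contDiff_succ_iff_deriv.mp this).2.2
  have e : ∀ k, iteratedDeriv k (_root_.deriv g) = iteratedDeriv (k + 1) g := fun k => by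
    rw [iteratedDeriv_succ']
  refine ⟨hs', fun p => E (p.1 + 1, p.2), fun k => B (k + 1), ?_, ?_, fun k q n => ?_,
    fun k x => ?_⟩
  · exact hE.comp ((Primrec.succ.comp Primrec.fst).pair Primrec.snd)
  · exact hB.comp Primrec.succ
  · rw [e]; exact h1 (k + 1) q n
  · rw [e]; exact h2 (k + 1) x

lemma exists_nat_ge' (α : ℝ) : ∃ A : ℕ, 1 ≤ A ∧ |α| ≤ A := by
  obtain ⟨A, hA⟩ := exists_nat_ge |α|
  exact ⟨A + 1, by omega, hA.trans (by push_cast; linarith)⟩

lemma iter_affine {g : ℝ → ℝ} (h : ContDiff ℝ (⊤ : ℕ∞) g) (α β : ℝ) (k : ℕ) :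
    iteratedDeriv k (fun x => g (α * x + β)) = fun x => α ^ k * iteratedDeriv k g (α * x + β) := by
  induction k with
  | zero => simp
  | succ k ih =>
    rw [iteratedDeriv_succ, ih]
    funext x
    have h1 : HasDerivAt (fun x : ℝ => α * x + β) α x := by
      simpa using ((hasDerivAt_id x).const_mul α).add_const β
    have h2 : HasDerivAt (iteratedDeriv k g) (iteratedDeriv (k + 1) g (α * x + β)) (α * x + β) := by
      rw [iteratedDeriv_succ]
      exact (diff_iter h k _).hasDerivAt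
    have h3 := (HasDerivAt.comp (h₂ := iteratedDeriv k g) x h2 h1).const_mul (α ^ k)
    have h4 : HasDerivAt (fun x => α ^ k * iteratedDeriv k g (α * x + β))
        (α ^ k * (iteratedDeriv (k + 1) g (α * x + β) * α)) x := h3
    rw [h4.deriv]
    ring

lemma Eff1.affine {g : ℝ → ℝ} (h : Eff1 g) (α β : ℚ) : Eff1 (fun x => g (α * x + β)) := by
  obtain ⟨hs, E, B, hE, hB, h1, h2⟩ := h
  obtain ⟨A, hA1, hA⟩ := exists_nat_ge' (α : ℝ)
  have hA0 : (1:ℝ) ≤ A := by exact_mod_cast hA1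
  refine ⟨hs.comp ((contDiff_const.mul contDiff_id).add contDiff_const),
    fun p => α ^ p.1 * E (p.1, α * p.2.1 + β, A ^ p.1 * (p.2.2 + 1)), fun k => A ^ k * B k,
    ?_, ?_, fun k q n => ?_, fun k x => ?_⟩
  · have hk : Primrec (fun p : ℕ × ℚ × ℕ => p.1) := Primrec.fst
    have hq : Primrec (fun p : ℕ × ℚ × ℕ => p.2.1) := Primrec.fst.comp Primrec.snd
    have hn : Primrec (fun p : ℕ × ℚ × ℕ => p.2.2) := Primrec.snd.comp Primrec.snd
    exact prim_mul (prim_qpow (Primrec.const α) hk) (hE.comp (hk.pair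
      ((prim_add (prim_mul (Primrec.const α) hq) (Primrec.const β)).pair
        (Primrec.nat_mul.comp (prim_pow.comp (Primrec.const A) hk) (Primrec.succ.comp hn)))))
  · exact Primrec.nat_mul.comp (prim_pow.comp (Primrec.const A) Primrec.id) hB
  · rw [iter_affine hs]
    have h3 := h1 k (α * q + β) (A ^ k * (n + 1))
    push_cast at h3 ⊢
    have e : (α:ℝ) ^ k * iteratedDeriv k g (α * q + β)
        - (α:ℝ) ^ k * E (k, α * q + β, A ^ k * (n + 1))
        = (α:ℝ) ^ k * (iteratedDeriv k g (α * q + β) - E (k, α * q + β, A ^ k * (n + 1))) := by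
      ring
    rw [e, abs_mul, abs_pow]
    have h4 : |(α:ℝ)| ^ k ≤ (A:ℝ) ^ k := pow_le_pow_left₀ (abs_nonneg _) hA k
    have h5 : (1:ℝ) ≤ (A:ℝ) ^ k := one_le_pow₀ hA0
    calc |(α:ℝ)| ^ k * _ ≤ (A:ℝ) ^ k * (1 / ((A:ℝ) ^ k * (n + 1) + 1)) :=
          mul_le_mul h4 h3 (abs_nonneg _) (by positivity)
      _ ≤ 1 / ((n:ℝ) + 1) := by
          rw [mul_one_div, div_le_div_iff₀ (by positivity) (by positivity)]
          nlinarith
  · rw [iter_affine hs]
    push_cast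
    show |(α:ℝ) ^ k * iteratedDeriv k g (α * x + β)| ≤ _
    rw [abs_mul, abs_pow]
    exact mul_le_mul (pow_le_pow_left₀ (abs_nonneg _) hA k) (h2 k _) (abs_nonneg _) (by positivity)

lemma Eff1.const_mul {g : ℝ → ℝ} (h : Eff1 g) (c : ℚ) : Eff1 (fun x => c * g x) := by
  obtain ⟨hs, E, B, hE, hB, h1, h2⟩ := h
  obtain ⟨A, hA1, hA⟩ := exists_nat_ge' (c : ℝ)
  have hA0 : (1:ℝ) ≤ A := by exact_mod_cast hA1
  have e : ∀ k x, iteratedDeriv k (fun x => (c:ℝ) * g x) x = c * iteratedDeriv k g x :=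
    fun k x => iteratedDeriv_const_mul_field (c:ℝ) g
  refine ⟨contDiff_const.mul hs, fun p => c * E (p.1, p.2.1, A * (p.2.2 + 1)), fun k => A * B k,
    ?_, ?_, fun k q n => ?_, fun k x => ?_⟩
  · have hk : Primrec (fun p : ℕ × ℚ × ℕ => p.1) := Primrec.fst
    have hq : Primrec (fun p : ℕ × ℚ × ℕ => p.2.1) := Primrec.fst.comp Primrec.snd
    have hn : Primrec (fun p : ℕ × ℚ × ℕ => p.2.2) := Primrec.snd.comp Primrec.snd
    exact prim_mul (Primrec.const c) (hE.comp (hk.pair (hq.pair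
      (Primrec.nat_mul.comp (Primrec.const A) (Primrec.succ.comp hn)))))
  · exact Primrec.nat_mul.comp (Primrec.const A) hB
  · rw [e]
    have h3 := h1 k q (A * (n + 1))
    push_cast at h3 ⊢
    rw [← mul_sub, abs_mul]
    calc |(c:ℝ)| * _ ≤ (A:ℝ) * (1 / ((A:ℝ) * (n + 1) + 1)) :=
          mul_le_mul hA h3 (abs_nonneg _) (by positivity)
      _ ≤ 1 / ((n:ℝ) + 1) := by
          rw [mul_one_div, div_le_div_iff₀ (by positivity) (by positivity)]
          nlinarith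
  · rw [e, abs_mul]
    push_cast
    exact mul_le_mul hA (h2 k _) (abs_nonneg _) (by positivity)

lemma Eff1.add {g g' : ℝ → ℝ} (h : Eff1 g) (h' : Eff1 g') : Eff1 (fun x => g x + g' x) := by
  obtain ⟨hs, E, B, hE, hB, h1, h2⟩ := h
  obtain ⟨hs', E', B', hE', hB', h1', h2'⟩ := h'
  have e : ∀ k x, iteratedDeriv k (fun x => g x + g' x) x
      = iteratedDeriv k g x + iteratedDeriv k g' x := fun k x => by
    have := iteratedDeriv_add (n := k) (x := x) (f := g) (g := g')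
      (hs.contDiffAt.of_le (by exact_mod_cast le_top)) (hs'.contDiffAt.of_le (by exact_mod_cast le_top))
    exact this
  refine ⟨hs.add hs', fun p => E (p.1, p.2.1, 2 * p.2.2 + 1) + E' (p.1, p.2.1, 2 * p.2.2 + 1),
    fun k => B k + B' k, ?_, ?_, fun k q n => ?_, fun k x => ?_⟩
  · have hk : Primrec (fun p : ℕ × ℚ × ℕ => p.1) := Primrec.fst
    have hq : Primrec (fun p : ℕ × ℚ × ℕ => p.2.1) := Primrec.fst.comp Primrec.snd
    have hn : Primrec (fun p : ℕ × ℚ × ℕ => 2 * p.2.2 + 1) :=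
      Primrec.succ.comp (Primrec.nat_mul.comp (Primrec.const 2) (Primrec.snd.comp Primrec.snd))
    exact prim_add (hE.comp (hk.pair (hq.pair hn))) (hE'.comp (hk.pair (hq.pair hn)))
  · exact Primrec.nat_add.comp hB hB'
  · rw [e]
    have h3 := h1 k q (2 * n + 1)
    have h4 := h1' k q (2 * n + 1)
    push_cast at h3 h4 ⊢
    have e2 : iteratedDeriv k g q + iteratedDeriv k g' q
        - ((E (k, q, 2 * n + 1) : ℝ) + E' (k, q, 2 * n + 1))
        = (iteratedDeriv k g q - E (k, q, 2 * n + 1))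
        + (iteratedDeriv k g' q - E' (k, q, 2 * n + 1)) := by ring
    rw [e2]
    refine (abs_add_le _ _).trans ((add_le_add h3 h4).trans (le_of_eq ?_))
    field_simp
    ring
  · rw [e]
    push_cast
    exact (abs_add_le _ _).trans (add_le_add (h2 k x) (h2' k x))

lemma Eff1.sub {g g' : ℝ → ℝ} (h : Eff1 g) (h' : Eff1 g') : Eff1 (fun x => g x - g' x) := by
  have := h.add (h'.const_mul (-1))
  have e : (fun x => g x + ((-1 : ℚ) : ℝ) * g' x) = fun x => g x - g' x := by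
    funext x; push_cast; ring
  rwa [e] at this

lemma iter_zero_out {g : ℝ → ℝ} (R : ℝ) (hR : ∀ x : ℝ, R < |x| → g x = 0) (k : ℕ) :
    ∀ x : ℝ, R < |x| → iteratedDeriv k g x = 0 := by
  induction k with
  | zero => simpa using hR
  | succ k ih =>
    intro x hx
    rw [iteratedDeriv_succ]
    have h1 : iteratedDeriv k g =ᶠ[𝓝 x] fun _ => (0:ℝ) := by
      have : {y : ℝ | R < |y|} ∈ 𝓝 x := (isOpen_lt continuous_const continuous_abs).mem_nhds hx
      filter_upwards [this] with y hy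
      exact ih y hy
    rw [h1.deriv_eq]
    simp

lemma iter_mul_x {g : ℝ → ℝ} (h : ContDiff ℝ (⊤ : ℕ∞) g) (k : ℕ) :
    iteratedDeriv k (fun x => x * g x)
      = fun x => x * iteratedDeriv k g x + k * iteratedDeriv (k - 1) g x := by
  induction k with
  | zero => simp
  | succ k ih =>
    rw [iteratedDeriv_succ, ih]
    funext x
    have hd : ∀ m, HasDerivAt (iteratedDeriv m g) (iteratedDeriv (m + 1) g x) x := fun m => by
      rw [iteratedDeriv_succ]; exact (diff_iter h m x).hasDerivAt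
    have h1 := ((hasDerivAt_id x).mul (hd k)).add ((hd (k - 1)).const_mul (k:ℝ))
    have h2 : HasDerivAt (fun x => x * iteratedDeriv k g x + k * iteratedDeriv (k - 1) g x)
        (1 * iteratedDeriv k g x + x * iteratedDeriv (k + 1) g x
          + k * iteratedDeriv (k - 1 + 1) g x) x := h1
    rw [h2.deriv, Nat.add_sub_cancel]
    rcases Nat.eq_zero_or_pos k with h0 | h0
    · subst h0; simp; ring
    · rw [Nat.sub_add_cancel h0]; push_cast; ring

lemma abs_le_pn (q : ℚ) : |(q:ℝ)| ≤ pn q + nn q := by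
  have h1 := q_eq q
  have hd : (1:ℝ) ≤ q.den := by exact_mod_cast q.den_pos
  have h2 : (q : ℝ) = ((pn q : ℝ) - nn q) / q.den := by
    have h2 : (q : ℝ) = ((((pn q : ℚ) - nn q) / q.den : ℚ) : ℝ) := by rw [← h1]
    rw [h2]; push_cast; ring
  rw [h2, abs_div, Nat.abs_cast]
  have h3 : |(pn q : ℝ) - nn q| ≤ pn q + nn q := by
    rw [abs_le]; constructor <;> linarith [(Nat.cast_nonneg (pn q) : (0:ℝ) ≤ _),
      (Nat.cast_nonneg (nn q) : (0:ℝ) ≤ _)]
  exact (div_le_self (abs_nonneg _) hd).trans h3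

lemma Eff1.mul_x {g : ℝ → ℝ} (h : Eff1 g) (hsup : Supp g) : Eff1 (fun x => x * g x) := by
  obtain ⟨hs, E, B, hE, hB, h1, h2⟩ := h
  obtain ⟨R, hR⟩ := hsup
  refine ⟨contDiff_id.mul hs, fun p => p.2.1 * E (p.1, p.2.1, 2 * ((pn p.2.1 + nn p.2.1 + 1)
      * (p.2.2 + 1))) + p.1 * E (p.1 - 1, p.2.1, 2 * ((p.1 + 1) * (p.2.2 + 1))),
    fun k => R * B k + k * B (k - 1), ?_, ?_, fun k q n => ?_, fun k x => ?_⟩
  · have hk : Primrec (fun p : ℕ × ℚ × ℕ => p.1) := Primrec.fst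
    have hq : Primrec (fun p : ℕ × ℚ × ℕ => p.2.1) := Primrec.fst.comp Primrec.snd
    have hn : Primrec (fun p : ℕ × ℚ × ℕ => p.2.2) := Primrec.snd.comp Primrec.snd
    refine prim_add (prim_mul hq (hE.comp (hk.pair (hq.pair (Primrec.nat_mul.comp
      (Primrec.const 2) (Primrec.nat_mul.comp (Primrec.succ.comp (Primrec.nat_add.comp
        (prim_pn.comp hq) (prim_nn.comp hq))) (Primrec.succ.comp hn)))))))
      (prim_mul (prim_natCast hk) (hE.comp ((Primrec.pred.comp hk).pair (hq.pair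
        (Primrec.nat_mul.comp (Primrec.const 2) (Primrec.nat_mul.comp (Primrec.succ.comp hk)
          (Primrec.succ.comp hn)))))))
  · exact Primrec.nat_add.comp (Primrec.nat_mul.comp (Primrec.const R) hB)
      (Primrec.nat_mul.comp Primrec.id (hB.comp Primrec.pred))
  · rw [iter_mul_x hs]
    have h3 := h1 k q (2 * ((pn q + nn q + 1) * (n + 1)))
    have h4 := h1 (k - 1) q (2 * ((k + 1) * (n + 1)))
    have h5 := abs_le_pn q
    push_cast at h3 h4 ⊢
    have e2 : (q:ℝ) * iteratedDeriv k g q + k * iteratedDeriv (k - 1) g q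
        - ((q:ℝ) * E (k, q, 2 * ((pn q + nn q + 1) * (n + 1)))
          + k * E (k - 1, q, 2 * ((k + 1) * (n + 1))))
        = (q:ℝ) * (iteratedDeriv k g q - E (k, q, 2 * ((pn q + nn q + 1) * (n + 1))))
        + k * (iteratedDeriv (k - 1) g q - E (k - 1, q, 2 * ((k + 1) * (n + 1)))) := by ring
    rw [e2]
    refine (abs_add_le _ _).trans ?_
    rw [abs_mul, abs_mul, Nat.abs_cast]
    have hp : (0:ℝ) ≤ pn q := Nat.cast_nonneg _
    have hn' : (0:ℝ) ≤ nn q := Nat.cast_nonneg _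
    have hk0 : (0:ℝ) ≤ k := Nat.cast_nonneg _
    have h6 : |(q:ℝ)| * |iteratedDeriv k g q - E (k, q, 2 * ((pn q + nn q + 1) * (n + 1)))|
        ≤ 1 / (2 * ((n:ℝ) + 1)) := by
      calc _ ≤ ((pn q : ℝ) + nn q) * (1 / (2 * (((pn q : ℝ) + nn q + 1) * ((n:ℝ) + 1)) + 1)) :=
            mul_le_mul h5 h3 (abs_nonneg _) (by positivity)
        _ ≤ 1 / (2 * ((n:ℝ) + 1)) := by
            rw [mul_one_div, div_le_div_iff₀ (by positivity) (by positivity)]
            nlinarith [mul_nonneg (add_nonneg hp hn') (Nat.cast_nonneg n : (0:ℝ) ≤ n)]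
    have h7 : (k:ℝ) * |iteratedDeriv (k - 1) g q - E (k - 1, q, 2 * ((k + 1) * (n + 1)))|
        ≤ 1 / (2 * ((n:ℝ) + 1)) := by
      calc _ ≤ (k:ℝ) * (1 / (2 * (((k : ℝ) + 1) * ((n:ℝ) + 1)) + 1)) :=
            mul_le_mul_of_nonneg_left h4 hk0
        _ ≤ 1 / (2 * ((n:ℝ) + 1)) := by
            rw [mul_one_div, div_le_div_iff₀ (by positivity) (by positivity)]
            nlinarith [mul_nonneg hk0 (Nat.cast_nonneg n : (0:ℝ) ≤ n)]
    have h8 : 1 / (2 * ((n:ℝ) + 1)) + 1 / (2 * ((n:ℝ) + 1)) = 1 / ((n:ℝ) + 1) := by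
      field_simp; ring
    linarith
  · rw [iter_mul_x hs]
    push_cast
    refine (abs_add_le _ _).trans ?_
    rw [abs_mul, abs_mul, Nat.abs_cast]
    refine add_le_add ?_ (mul_le_mul_of_nonneg_left (h2 _ _) (Nat.cast_nonneg _))
    rcases le_or_gt |x| R with hx | hx
    · exact mul_le_mul hx (h2 k x) (abs_nonneg _) (Nat.cast_nonneg _)
    · rw [iter_zero_out R hR k x hx, abs_zero, mul_zero]
      positivity

lemma Supp.mul_x {g : ℝ → ℝ} (h : Supp g) : Supp (fun x => x * g x) := by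
  obtain ⟨R, hR⟩ := h
  exact ⟨R, fun x hx => by simp only [hR x hx, mul_zero]⟩

lemma Supp.const_mul {g : ℝ → ℝ} (h : Supp g) (c : ℝ) : Supp (fun x => c * g x) := by
  obtain ⟨R, hR⟩ := h
  exact ⟨R, fun x hx => by simp only [hR x hx, mul_zero]⟩

lemma Supp.add {g g' : ℝ → ℝ} (h : Supp g) (h' : Supp g') : Supp (fun x => g x + g' x) := by
  obtain ⟨R, hR⟩ := h
  obtain ⟨R', hR'⟩ := h'
  refine ⟨max R R', fun x hx => ?_⟩
  have h1 : (R:ℝ) ≤ ((max R R' : ℕ) : ℝ) := by exact_mod_cast le_max_left R R'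
  have h2 : (R':ℝ) ≤ ((max R R' : ℕ) : ℝ) := by exact_mod_cast le_max_right R R'
  simp only [hR x (by linarith), hR' x (by linarith), add_zero]

lemma Supp.deriv {g : ℝ → ℝ} (h : Supp g) : Supp (deriv g) := by
  obtain ⟨R, hR⟩ := h
  refine ⟨R, fun x hx => ?_⟩
  have := iter_zero_out R hR 1 x hx
  rwa [iteratedDeriv_one] at this

lemma eff_zero : Eff1 (fun _ => 0) := by
  have := eff_F.const_mul 0
  simpa using this

lemma supp_zero : Supp (fun _ => 0) := ⟨0, fun _ _ => rfl⟩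

/-! ### cutoffs -/

/-- cutoff: `1` on `[l,u]`, `0` outside `[l-δ,u+δ]` -/
noncomputable def chi (l u δ : ℚ) (x : ℝ) : ℝ :=
  F (((1 / δ : ℚ) : ℝ) * x + ((-(l - δ) / δ : ℚ) : ℝ)) - F (((1 / δ : ℚ) : ℝ) * x + ((-u / δ : ℚ) : ℝ))

lemma eff_chi (l u δ : ℚ) : Eff1 (chi l u δ) := (eff_F.affine _ _).sub (eff_F.affine _ _)

lemma chi_one {l u δ : ℚ} (hδ : 0 < δ) {x : ℝ} (h1 : (l:ℝ) ≤ x) (h2 : x ≤ u) : chi l u δ x = 1 := by
  have hδ' : (0:ℝ) < δ := by exact_mod_cast hδ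
  unfold chi
  rw [F_good.one, F_good.zero, sub_zero]
  · push_cast
    have : 1 / (δ:ℝ) * x + -(u:ℝ) / δ = (x - u) / δ := by ring
    rw [this]
    exact div_nonpos_of_nonpos_of_nonneg (by linarith) hδ'.le
  · push_cast
    have : 1 / (δ:ℝ) * x + -((l:ℝ) - δ) / δ = (x - l) / δ + 1 := by field_simp; ring
    rw [this]
    have : 0 ≤ (x - l) / δ := div_nonneg (by linarith) hδ'.le
    linarith

lemma chi_zero_left {l u δ : ℚ} (hδ : 0 < δ) (hlu : l ≤ u) {x : ℝ} (h1 : x ≤ l - δ) :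
    chi l u δ x = 0 := by
  have hδ' : (0:ℝ) < δ := by exact_mod_cast hδ
  have hlu' : (l:ℝ) ≤ u := by exact_mod_cast hlu
  unfold chi
  rw [F_good.zero, F_good.zero, sub_zero]
  · push_cast
    have : 1 / (δ:ℝ) * x + -(u:ℝ) / δ = (x - u) / δ := by ring
    rw [this]
    exact div_nonpos_of_nonpos_of_nonneg (by linarith) hδ'.le
  · push_cast
    have : 1 / (δ:ℝ) * x + -((l:ℝ) - δ) / δ = (x - (l - δ)) / δ := by ring
    rw [this]
    exact div_nonpos_of_nonpos_of_nonneg (by linarith) hδ'.le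

lemma chi_zero_right {l u δ : ℚ} (hδ : 0 < δ) (hlu : l ≤ u) {x : ℝ} (h1 : u + δ ≤ x) :
    chi l u δ x = 0 := by
  have hδ' : (0:ℝ) < δ := by exact_mod_cast hδ
  have hlu' : (l:ℝ) ≤ u := by exact_mod_cast hlu
  unfold chi
  rw [F_good.one, F_good.one, sub_self]
  · push_cast
    have : 1 / (δ:ℝ) * x + -(u:ℝ) / δ = (x - u) / δ := by ring
    rw [this, le_div_iff₀ hδ']
    linarith
  · push_cast
    have : 1 / (δ:ℝ) * x + -((l:ℝ) - δ) / δ = (x - (l - δ)) / δ := by ring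
    rw [this, le_div_iff₀ hδ']
    linarith

lemma supp_chi {l u δ : ℚ} (hδ : 0 < δ) (hlu : l ≤ u) : Supp (chi l u δ) := by
  obtain ⟨A, -, hA⟩ := exists_nat_ge' ((l:ℝ) - δ)
  obtain ⟨A', -, hA'⟩ := exists_nat_ge' ((u:ℝ) + δ)
  refine ⟨max A A', fun x hx => ?_⟩
  have h1 : (A:ℝ) ≤ ((max A A' : ℕ) : ℝ) := by exact_mod_cast le_max_left A A'
  have h2 : (A':ℝ) ≤ ((max A A' : ℕ) : ℝ) := by exact_mod_cast le_max_right A A'
  rcases le_total 0 x with h | h
  · rw [abs_of_nonneg h] at hx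
    exact chi_zero_right hδ hlu (by linarith [le_abs_self ((u:ℝ) + δ)])
  · rw [abs_of_nonpos h] at hx
    exact chi_zero_left hδ hlu (by linarith [neg_abs_le ((l:ℝ) - δ)])

end Crest.Agent.H4
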