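import Mathlib
import Crest.Prelude.Def_BoxFlow
import Crest.Agent.H4.EffClosure

/-! Effective fields from products of effective one-variable functions. -/

set_option autoImplicit false
set_option linter.unusedVariables false

namespace Crest.Agent.H4

open Fab QComp Filter Topology Crest.AnalysisR.BoxFlow

/-- the space-time coordinates -/
def co (p : ℝ × (Fin 3 → ℝ)) (d : Fin 4) : ℝ := if h : d = 0 then p.1 else p.2 (d.pred h)

lemma co_line (p : ℝ × (Fin 3 → ℝ)) (d e : Fin 4) (t : ℝ) :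
    co (p + t • direction d) e = if e = d then co p e + t else co p e := by
  unfold co direction
  by_cases he : e = 0
  · subst he
    by_cases hd : d = 0
    · subst hd; simp
    · have : ¬ (0 : Fin 4) = d := fun h => hd h.symm
      simp [hd, this]
  · by_cases hd : d = 0
    · subst hd; simp [he]
    · by_cases h : e = d
      · subst h; simp [he]
      · have : ¬ e.pred he = d.pred hd := fun h2 => h (Fin.pred_inj.mp h2)
        simp [he, hd, h, Pi.single_apply, this]

lemma contDiff_co (d : Fin 4) : ContDiff ℝ (⊤ : ℕ∞) (fun p : ℝ × (Fin 3 → ℝ) => co p d) := by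
  unfold co
  by_cases h : d = 0
  · simp only [h, dif_pos]; exact contDiff_fst
  · simp only [h, dif_neg, not_false_eq_true]
    exact (contDiff_apply ℝ ℝ (d.pred h)).comp contDiff_snd

/-- product of one-variable functions -/
noncomputable def prodF (g : Fin 4 → ℝ → ℝ) (p : ℝ × (Fin 3 → ℝ)) : ℝ := ∏ d, g d (co p d)

lemma contDiff_prodF {g : Fin 4 → ℝ → ℝ} (hg : ∀ d, ContDiff ℝ (⊤ : ℕ∞) (g d)) :
    ContDiff ℝ (⊤ : ℕ∞) (prodF g) := by
  unfold prodF
  exact contDiff_prod fun d _ => (hg d).comp (contDiff_co d)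

lemma fderiv_prodF {g : Fin 4 → ℝ → ℝ} (hg : ∀ d, ContDiff ℝ (⊤ : ℕ∞) (g d)) (d : Fin 4)
    (p : ℝ × (Fin 3 → ℝ)) :
    fderiv ℝ (prodF g) p (direction d) = prodF (Function.update g d (deriv (g d))) p := by
  have hdiff : DifferentiableAt ℝ (prodF g) p :=
    (contDiff_prodF hg).differentiable (by simp) p
  rw [← hdiff.lineDeriv_eq_fderiv]
  unfold lineDeriv
  have e : (fun t : ℝ => prodF g (p + t • direction d))
      = fun t => g d (co p d + t) * ∏ e ∈ Finset.univ.erase d, g e (co p e) := by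
    funext t
    unfold prodF
    rw [← Finset.mul_prod_erase Finset.univ _ (Finset.mem_univ d)]
    congr 1
    · rw [co_line, if_pos rfl]
    · refine Finset.prod_congr rfl fun e he => ?_
      rw [co_line, if_neg (Finset.ne_of_mem_erase he)]
  rw [e]
  have h1 : HasDerivAt (fun t : ℝ => co p d + t) 1 0 := by
    simpa using (hasDerivAt_id (0:ℝ)).const_add (co p d)
  have h2 : HasDerivAt (g d) (deriv (g d) (co p d + 0)) (co p d + 0) :=
    ((hg d).differentiable (by simp) _).hasDerivAt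
  have h3 := (HasDerivAt.comp (h₂ := g d) 0 h2 h1).mul_const
    (∏ e ∈ Finset.univ.erase d, g e (co p e))
  have h4 : HasDerivAt (fun t => g d (co p d + t) * ∏ e ∈ Finset.univ.erase d, g e (co p e))
      (deriv (g d) (co p d + 0) * 1 * ∏ e ∈ Finset.univ.erase d, g e (co p e)) 0 := h3
  rw [h4.deriv]
  unfold prodF
  rw [← Finset.mul_prod_erase Finset.univ (fun e => Function.update g d (deriv (g d)) e (co p e))
    (Finset.mem_univ d)]
  congr 1
  · simp
  · refine Finset.prod_congr rfl fun e he => ?_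
    rw [Function.update_of_ne (Finset.ne_of_mem_erase he)]

/-- scalar mixed derivative -/
noncomputable def mixedS : List (Fin 4) → (ℝ × (Fin 3 → ℝ) → ℝ) → (ℝ × (Fin 3 → ℝ) → ℝ)
  | [], f => f
  | d :: ds, f => fun p => fderiv ℝ (mixedS ds f) p (direction d)

lemma contDiff_mixedS {f : ℝ × (Fin 3 → ℝ) → ℝ} (hf : ContDiff ℝ (⊤ : ℕ∞) f) (ds : List (Fin 4)) :
    ContDiff ℝ (⊤ : ℕ∞) (mixedS ds f) := by
  induction ds with
  | nil => exact hf
  | cons d ds ih =>
    show ContDiff ℝ (⊤ : ℕ∞) fun p => fderiv ℝ (mixedS ds f) p (direction d)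
    exact (ih.fderiv_right (m := (⊤ : ℕ∞)) (by simp)).clm_apply contDiff_const

lemma contDiff_mixedDeriv {U : Field} (hf : ContDiff ℝ (⊤ : ℕ∞) U) (ds : List (Fin 4)) :
    ContDiff ℝ (⊤ : ℕ∞) (mixedDeriv ds U) := by
  induction ds with
  | nil => exact hf
  | cons d ds ih =>
    show ContDiff ℝ (⊤ : ℕ∞) fun p => fderiv ℝ (mixedDeriv ds U) p (direction d)
    exact (ih.fderiv_right (m := (⊤ : ℕ∞)) (by simp)).clm_apply contDiff_const

lemma fderiv_comp_apply {U : Field} {p : ℝ × (Fin 3 → ℝ)} (h : DifferentiableAt ℝ U p)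
    (v : ℝ × (Fin 3 → ℝ)) (j : Fin 3) :
    fderiv ℝ U p v j = fderiv ℝ (fun p => U p j) p v := by
  have h1 := (hasFDerivAt_pi'.mp h.hasFDerivAt) j
  rw [h1.fderiv]
  rfl

lemma mixedDeriv_apply {U : Field} (hf : ContDiff ℝ (⊤ : ℕ∞) U) (ds : List (Fin 4)) (j : Fin 3) :
    (fun p => mixedDeriv ds U p j) = mixedS ds (fun p => U p j) := by
  induction ds with
  | nil => rfl
  | cons d ds ih =>
    funext p
    show fderiv ℝ (mixedDeriv ds U) p (direction d) j = fderiv ℝ (mixedS ds fun p => U p j) p _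
    rw [fderiv_comp_apply ((contDiff_mixedDeriv hf ds).differentiable (by simp) p), ih]

lemma mixedS_prodF {g : Fin 4 → ℝ → ℝ} (hg : ∀ d, ContDiff ℝ (⊤ : ℕ∞) (g d))
    (ds : List (Fin 4)) :
    mixedS ds (prodF g) = prodF (fun d => iteratedDeriv (ds.count d) (g d)) := by
  induction ds with
  | nil => simp [mixedS]
  | cons d ds ih =>
    have hs : ∀ e, ContDiff ℝ (⊤ : ℕ∞) (iteratedDeriv (ds.count e) (g e)) := fun e => by
      have h := (hg e)
      rw [iteratedDeriv_eq_iterate]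
      induction ds.count e with
      | zero => exact h
      | succ k ihk =>
        rw [Function.iterate_succ_apply']
        have : ContDiff ℝ ((⊤ : ℕ∞) + 1 : WithTop ℕ∞) (deriv^[k] (g e)) := ihk
        exact (contDiff_succ_iff_deriv.mp this).2.2
    funext p
    show fderiv ℝ (mixedS ds (prodF g)) p (direction d) = _
    rw [ih, fderiv_prodF hs]
    congr 1
    funext e
    by_cases he : e = d
    · subst he
      rw [Function.update_self, List.count_cons_self, iteratedDeriv_succ]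
    · rw [Function.update_of_ne he, List.count_cons_of_ne (Ne.symm he)]

lemma mixedS_add {f g : ℝ × (Fin 3 → ℝ) → ℝ} (hf : ContDiff ℝ (⊤ : ℕ∞) f)
    (hg : ContDiff ℝ (⊤ : ℕ∞) g) (ds : List (Fin 4)) :
    mixedS ds (fun p => f p + g p) = fun p => mixedS ds f p + mixedS ds g p := by
  induction ds with
  | nil => rfl
  | cons d ds ih =>
    funext p
    show fderiv ℝ (mixedS ds fun p => f p + g p) p (direction d) = _
    rw [ih, fderiv_fun_add ((contDiff_mixedS hf ds).differentiable (by simp) p)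
      ((contDiff_mixedS hg ds).differentiable (by simp) p)]
    rfl

/-- effective scalar function on space-time -/
def EffS (f : ℝ × (Fin 3 → ℝ) → ℝ) : Prop := ContDiff ℝ (⊤ : ℕ∞) f ∧
  ∃ (E : List (Fin 4) × (ℚ × (Fin 3 → ℚ)) × ℕ → ℚ) (B : List (Fin 4) → ℕ),
    Primrec E ∧ Primrec B ∧
    (∀ (ds : List (Fin 4)) (t : ℚ) (q : Fin 3 → ℚ) (n : ℕ),
      |mixedS ds f ((t : ℝ), ratPoint q) - E (ds, (t, q), n)| ≤ 1 / ((n : ℝ) + 1)) ∧
    ∀ (ds : List (Fin 4)) (p : ℝ × (Fin 3 → ℝ)), |mixedS ds f p| ≤ B ds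

lemma EffS.add {f g : ℝ × (Fin 3 → ℝ) → ℝ} (hf : EffS f) (hg : EffS g) :
    EffS (fun p => f p + g p) := by
  obtain ⟨hs, E, B, hE, hB, h1, h2⟩ := hf
  obtain ⟨hs', E', B', hE', hB', h1', h2'⟩ := hg
  refine ⟨hs.add hs', fun p => E (p.1, p.2.1, 2 * p.2.2 + 1) + E' (p.1, p.2.1, 2 * p.2.2 + 1),
    fun k => B k + B' k, ?_, ?_, fun ds t q n => ?_, fun ds p => ?_⟩
  · have hk : Primrec (fun p : List (Fin 4) × (ℚ × (Fin 3 → ℚ)) × ℕ => p.1) := Primrec.fst
    have hq : Primrec (fun p : List (Fin 4) × (ℚ × (Fin 3 → ℚ)) × ℕ => p.2.1) :=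
      Primrec.fst.comp Primrec.snd
    have hn : Primrec (fun p : List (Fin 4) × (ℚ × (Fin 3 → ℚ)) × ℕ => 2 * p.2.2 + 1) :=
      Primrec.succ.comp (Primrec.nat_mul.comp (Primrec.const 2) (Primrec.snd.comp Primrec.snd))
    exact prim_add (hE.comp (hk.pair (hq.pair hn))) (hE'.comp (hk.pair (hq.pair hn)))
  · exact Primrec.nat_add.comp hB hB'
  · rw [mixedS_add hs hs']
    have h3 := h1 ds t q (2 * n + 1)
    have h4 := h1' ds t q (2 * n + 1)
    push_cast at h3 h4 ⊢
    have e2 : mixedS ds f ((t : ℝ), ratPoint q) + mixedS ds g ((t : ℝ), ratPoint q)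
        - ((E (ds, (t, q), 2 * n + 1) : ℝ) + E' (ds, (t, q), 2 * n + 1))
        = (mixedS ds f ((t : ℝ), ratPoint q) - E (ds, (t, q), 2 * n + 1))
        + (mixedS ds g ((t : ℝ), ratPoint q) - E' (ds, (t, q), 2 * n + 1)) := by ring
    rw [e2]
    refine (abs_add_le _ _).trans ((add_le_add h3 h4).trans (le_of_eq ?_))
    field_simp
    ring
  · rw [mixedS_add hs hs']
    push_cast
    exact (abs_add_le _ _).trans (add_le_add (h2 _ _) (h2' _ _))

lemma prod_near {ι : Type*} (s : Finset ι) (a b B : ι → ℝ) (ε : ℝ) (hε : 0 ≤ ε) (hε1 : ε ≤ 1)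
    (ha : ∀ i, |a i| ≤ B i) (hab : ∀ i, |a i - b i| ≤ ε) :
    |∏ i ∈ s, b i| ≤ ∏ i ∈ s, (B i + 1) ∧
    |∏ i ∈ s, a i - ∏ i ∈ s, b i| ≤ s.card * ε * ∏ i ∈ s, (B i + 1) := by
  classical
  have hB0 : ∀ i, 0 ≤ B i := fun i => (abs_nonneg _).trans (ha i)
  induction s using Finset.induction_on with
  | empty => simp
  | insert i s hi ih =>
    obtain ⟨ih1, ih2⟩ := ih
    rw [Finset.prod_insert hi, Finset.prod_insert hi, Finset.prod_insert hi,
      Finset.card_insert_of_notMem hi]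
    have hP : 0 ≤ ∏ i ∈ s, (B i + 1) := Finset.prod_nonneg fun i _ => by linarith [hB0 i]
    have hb : |b i| ≤ B i + 1 := by
      have : b i = a i - (a i - b i) := by ring
      rw [this]
      exact (abs_sub _ _).trans (by linarith [ha i, hab i])
    constructor
    · rw [abs_mul]
      exact mul_le_mul hb ih1 (abs_nonneg _) (by linarith [hB0 i])
    · have e : a i * ∏ i ∈ s, a i - b i * ∏ i ∈ s, b i
          = a i * (∏ i ∈ s, a i - ∏ i ∈ s, b i) + (a i - b i) * ∏ i ∈ s, b i := by ring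
      rw [e]
      refine (abs_add_le _ _).trans ?_
      rw [abs_mul, abs_mul]
      have h1 : |a i| * |∏ i ∈ s, a i - ∏ i ∈ s, b i|
          ≤ (B i + 1) * (s.card * ε * ∏ i ∈ s, (B i + 1)) :=
        mul_le_mul ((ha i).trans (by linarith)) ih2 (abs_nonneg _) (by linarith [hB0 i])
      have h2 : |a i - b i| * |∏ i ∈ s, b i| ≤ ε * ∏ i ∈ s, (B i + 1) :=
        mul_le_mul (hab i) ih1 (abs_nonneg _) hε
      have h3 : ε * ∏ i ∈ s, (B i + 1) ≤ (B i + 1) * (ε * ∏ i ∈ s, (B i + 1)) := by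
        have : 0 ≤ ε * ∏ i ∈ s, (B i + 1) := mul_nonneg hε hP
        nlinarith [hB0 i]
      push_cast
      nlinarith

lemma prim_count (d : Fin 4) : Primrec (fun ds : List (Fin 4) => ds.count d) := by
  have h : Primrec (fun ds : List (Fin 4) => (ds.filter (fun e => decide (e = d))).length) :=
    Primrec.list_length.comp (Primrec.listFilter (p := fun e : Fin 4 => e = d)
      (Primrec.eq.comp Primrec.id (Primrec.const d)))
  refine h.of_eq fun ds => ?_
  rw [List.count, List.countP_eq_length_filter]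
  congr 1

/-- rational coordinates -/
def coQ (p : ℚ × (Fin 3 → ℚ)) (d : Fin 4) : ℚ := if h : d = 0 then p.1 else p.2 (d.pred h)

lemma prim_coQ (d : Fin 4) : Primrec (fun p : ℚ × (Fin 3 → ℚ) => coQ p d) := by
  unfold coQ
  by_cases h : d = 0
  · simp only [h, dif_pos]; exact Primrec.fst
  · simp only [h, dif_neg, not_false_eq_true]
    exact Primrec.fin_app.comp Primrec.snd (Primrec.const (d.pred h))

lemma co_rat (t : ℚ) (q : Fin 3 → ℚ) (d : Fin 4) :
    co ((t : ℝ), ratPoint q) d = (coQ (t, q) d : ℝ) := by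
  unfold co coQ
  by_cases h : d = 0
  · simp [h]
  · simp [h, ratPoint]

lemma prim_prod4Q {α : Type*} [Primcodable α] {f : Fin 4 → α → ℚ} (hf : ∀ d, Primrec (f d)) :
    Primrec (fun x => ∏ d, f d x) := by
  refine (prim_mul (prim_mul (prim_mul (hf 0) (hf 1)) (hf 2)) (hf 3)).of_eq fun x => ?_
  rw [Fin.prod_univ_four]

lemma prim_prod4N {α : Type*} [Primcodable α] {f : Fin 4 → α → ℕ} (hf : ∀ d, Primrec (f d)) :
    Primrec (fun x => ∏ d, f d x) := by
  refine (Primrec.nat_mul.comp (Primrec.nat_mul.comp (Primrec.nat_mul.comp (hf 0) (hf 1))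
    (hf 2)) (hf 3)).of_eq fun x => ?_
  rw [Fin.prod_univ_four]

theorem effS_prodF {g : Fin 4 → ℝ → ℝ} (hg : ∀ d, Eff1 (g d)) : EffS (prodF g) := by
  have hs : ∀ d, ContDiff ℝ (⊤ : ℕ∞) (g d) := fun d => (hg d).1
  choose hs' E B hE hB h1 h2 using hg
  let m : List (Fin 4) × (ℚ × (Fin 3 → ℚ)) × ℕ → ℕ := fun p =>
    4 * ((∏ d, (B d (p.1.count d) + 1)) * (p.2.2 + 1))
  have hk : Primrec (fun p : List (Fin 4) × (ℚ × (Fin 3 → ℚ)) × ℕ => p.1) := Primrec.fst
  have hq : Primrec (fun p : List (Fin 4) × (ℚ × (Fin 3 → ℚ)) × ℕ => p.2.1) :=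
    Primrec.fst.comp Primrec.snd
  have hn : Primrec (fun p : List (Fin 4) × (ℚ × (Fin 3 → ℚ)) × ℕ => p.2.2) :=
    Primrec.snd.comp Primrec.snd
  have hm : Primrec m :=
    Primrec.nat_mul.comp (Primrec.const 4) (Primrec.nat_mul.comp
      (prim_prod4N fun d => Primrec.succ.comp ((hB d).comp ((prim_count d).comp hk)))
      (Primrec.succ.comp hn))
  refine ⟨contDiff_prodF hs, fun p => ∏ d, E d (p.1.count d, coQ p.2.1 d, m p),
    fun ds => ∏ d, B d (ds.count d), ?_, ?_, fun ds t q n => ?_, fun ds p => ?_⟩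
  · exact prim_prod4Q fun d => (hE d).comp (((prim_count d).comp hk).pair
      (((prim_coQ d).comp hq).pair hm))
  · exact prim_prod4N fun d => (hB d).comp (prim_count d)
  · rw [mixedS_prodF hs]
    unfold prodF
    simp_rw [co_rat]
    set M := m (ds, (t, q), n) with hM
    have hP : (0:ℝ) < ∏ d, ((B d (ds.count d) : ℝ) + 1) :=
      Finset.prod_pos fun d _ => by positivity
    have hMr : (M : ℝ) = 4 * ((∏ d, ((B d (ds.count d) : ℝ) + 1)) * (n + 1)) := by
      rw [hM]; push_cast [m]; ring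
    have h3 := (prod_near Finset.univ
      (fun d => iteratedDeriv (ds.count d) (g d) (coQ (t, q) d))
      (fun d => (E d (ds.count d, coQ (t, q) d, M) : ℝ)) (fun d => (B d (ds.count d) : ℝ))
      (1 / ((M:ℝ) + 1)) (by positivity) (by
        rw [div_le_one (by positivity)]
        have : (0:ℝ) ≤ M := Nat.cast_nonneg _
        linarith)
      (fun d => h2 d _ _) (fun d => h1 d _ _ _)).2
    push_cast
    refine h3.trans ?_
    rw [Finset.card_univ, Fintype.card_fin, hMr]
    set P := ∏ d, ((B d (ds.count d) : ℝ) + 1) with hPdef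
    push_cast
    have e : 4 * (1 / (4 * (P * ((n:ℝ) + 1)) + 1)) * P = 4 * P / (4 * (P * ((n:ℝ) + 1)) + 1) := by
      ring
    rw [e, div_le_div_iff₀ (by positivity) (by positivity)]
    nlinarith
  · rw [mixedS_prodF hs]
    unfold prodF
    rw [Finset.abs_prod]
    push_cast
    exact Finset.prod_le_prod (fun d _ => abs_nonneg _) fun d _ => h2 d _ _

lemma effS_zero : EffS (fun _ => 0) := by
  have := effS_prodF (g := fun _ _ => 0) (fun _ => eff_zero)
  have e : prodF (fun _ _ => 0) = fun _ => 0 := by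
    funext p; unfold prodF; simp
  rwa [e] at this

lemma prim_finFun {α : Type*} [Primcodable α] {f : Fin 3 → α → ℚ} (hf : ∀ j, Primrec (f j)) :
    Primrec (fun x => fun j => f j x) := by
  have h := Primrec.vector_get'.comp (Primrec.vector_ofFn hf)
  refine h.of_eq fun x => ?_
  funext j
  rw [List.Vector.get_ofFn]

theorem effective_of_comp {U : Field} (hU : ∀ j, EffS (fun p => U p j)) :
    ContDiff ℝ (⊤ : ℕ∞) U ∧ Effective U := by
  have hs : ContDiff ℝ (⊤ : ℕ∞) U := contDiff_pi.mpr fun j => (hU j).1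
  refine ⟨hs, ?_⟩
  choose hs' E B hE hB h1 h2 using hU
  refine ⟨fun p j => E j p, fun ds => B 0 ds + B 1 ds + B 2 ds,
    (prim_finFun hE).to_comp, ?_, fun ds t q n j => ?_, fun ds p j => ?_⟩
  · exact (Primrec.nat_add.comp (Primrec.nat_add.comp (hB 0) (hB 1)) (hB 2)).to_comp
  · have : mixedDeriv ds U ((t : ℝ), ratPoint q) j
        = mixedS ds (fun p => U p j) ((t : ℝ), ratPoint q) :=
      congrFun (mixedDeriv_apply hs ds j) ((t : ℝ), ratPoint q)
    rw [this]
    exact h1 j ds t q n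
  · have : mixedDeriv ds U p j = mixedS ds (fun p => U p j) p :=
      congrFun (mixedDeriv_apply hs ds j) p
    rw [this]
    refine (h2 j ds p).trans ?_
    push_cast
    have h0 : (0:ℝ) ≤ B 0 ds := Nat.cast_nonneg _
    have h1 : (0:ℝ) ≤ B 1 ds := Nat.cast_nonneg _
    have h2 : (0:ℝ) ≤ B 2 ds := Nat.cast_nonneg _
    fin_cases j <;> simp <;> linarith

end Crest.Agent.H4
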