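import Mathlib
import Crest.Prelude.Def_BoxFlow
import Crest.Agent.H4.EffField

/-! Elementary divergence free fields, their concatenation in time, and explicit trajectories. -/

set_option autoImplicit false
set_option linter.unusedVariables false

namespace Crest.Agent.H4

open Fab QComp Filter Topology Crest.AnalysisR.BoxFlow Set

abbrev Sp := Fin 3 → ℝ

/-- elementary spatial fields -/
def Elem (V : Sp → Sp) : Prop :=
  (∀ c, ∃ g : Fin 3 → ℝ → ℝ, (∀ l, Eff1 (g l)) ∧ (∀ l, Supp (g l)) ∧
    ∀ x, V x c = ∏ l, g l (x l)) ∧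
  ∀ x, ∑ j, fderiv ℝ V x (Pi.single j 1) j = 0

lemma Elem.smooth {V : Sp → Sp} (h : Elem V) : ContDiff ℝ (⊤ : ℕ∞) V := by
  rw [contDiff_pi]
  intro c
  obtain ⟨g, hg, -, hgV⟩ := h.1 c
  have : (fun x => V x c) = fun x => ∏ l, g l (x l) := funext hgV
  rw [this]
  exact contDiff_prod fun l _ => (hg l).1.comp (contDiff_apply ℝ ℝ l)

lemma Elem.zero : Elem (fun _ => 0) := by
  refine ⟨fun c => ⟨fun _ _ => 0, fun _ => eff_zero, fun _ => supp_zero, fun x => by simp⟩,
    fun x => by simp⟩

lemma Elem.neg {V : Sp → Sp} (h : Elem V) : Elem (fun x => - V x) := by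
  refine ⟨fun c => ?_, fun x => ?_⟩
  · obtain ⟨g, hg, hs, hgV⟩ := h.1 c
    refine ⟨fun l x => if l = 0 then ((-1 : ℚ) : ℝ) * g l x else g l x, fun l => ?_, fun l => ?_,
      fun x => ?_⟩
    · by_cases hl : l = 0
      · simp only [hl, if_true]; exact (hg 0).const_mul (-1)
      · simp only [hl, if_false]; exact hg l
    · by_cases hl : l = 0
      · simp only [hl, if_true]; exact (hs 0).const_mul _
      · simp only [hl, if_false]; exact hs l
    · show - V x c = _
      rw [hgV, Fin.prod_univ_three, Fin.prod_univ_three]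
      simp
  · have : fderiv ℝ (fun x => - V x) x = - fderiv ℝ V x := fderiv_fun_neg
    rw [this]
    have h2 := h.2 x
    simp only [neg_apply, Pi.neg_apply, Finset.sum_neg_distrib, h2, neg_zero]

/-- derivative of a product of one-variable functions of the spatial coordinates -/
lemma fderiv_sprod {g : Fin 3 → ℝ → ℝ} (hg : ∀ d, ContDiff ℝ (⊤ : ℕ∞) (g d)) (d : Fin 3) (x : Sp) :
    fderiv ℝ (fun x : Sp => ∏ l, g l (x l)) x (Pi.single d 1)
      = ∏ l, (Function.update g d (deriv (g d))) l (x l) := by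
  have hsm : ContDiff ℝ (⊤ : ℕ∞) (fun x : Sp => ∏ l, g l (x l)) :=
    contDiff_prod fun l _ => (hg l).comp (contDiff_apply ℝ ℝ l)
  rw [← (hsm.differentiable (by simp) x).lineDeriv_eq_fderiv]
  unfold lineDeriv
  have e : (fun t : ℝ => ∏ l, g l ((x + t • (Pi.single d 1 : Sp)) l))
      = fun t => g d (x d + t) * ∏ e ∈ Finset.univ.erase d, g e (x e) := by
    funext t
    rw [← Finset.mul_prod_erase Finset.univ _ (Finset.mem_univ d)]
    congr 1
    · simp
    · refine Finset.prod_congr rfl fun e he => ?_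
      simp [Pi.single_apply, Finset.ne_of_mem_erase he]
  rw [e]
  have h1 : HasDerivAt (fun t : ℝ => x d + t) 1 0 := by
    simpa using (hasDerivAt_id (0:ℝ)).const_add (x d)
  have h2 : HasDerivAt (g d) (deriv (g d) (x d + 0)) (x d + 0) :=
    ((hg d).differentiable (by simp) _).hasDerivAt
  have h3 := (HasDerivAt.comp (h₂ := g d) 0 h2 h1).mul_const
    (∏ e ∈ Finset.univ.erase d, g e (x e))
  have h4 : HasDerivAt (fun t => g d (x d + t) * ∏ e ∈ Finset.univ.erase d, g e (x e))
      (deriv (g d) (x d + 0) * 1 * ∏ e ∈ Finset.univ.erase d, g e (x e)) 0 := h3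
  rw [h4.deriv, ← Finset.mul_prod_erase Finset.univ
    (fun e => Function.update g d (deriv (g d)) e (x e)) (Finset.mem_univ d)]
  congr 1
  · simp
  · refine Finset.prod_congr rfl fun e he => ?_
    rw [Function.update_of_ne (Finset.ne_of_mem_erase he)]

lemma fderiv_sp_apply {V : Sp → Sp} {x : Sp} (h : DifferentiableAt ℝ V x) (v : Sp) (j : Fin 3) :
    fderiv ℝ V x v j = fderiv ℝ (fun x => V x j) x v := by
  have h1 := (hasFDerivAt_pi'.mp h.hasFDerivAt) j
  rw [h1.fderiv]
  rfl

/-- the field with stream function `∏ g l (x l)` in the plane `(i,j)` -/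
noncomputable def streamF (i j : Fin 3) (g : Fin 3 → ℝ → ℝ) (x : Sp) (c : Fin 3) : ℝ :=
  if c = i then ∏ l, (Function.update g j (deriv (g j))) l (x l)
  else if c = j then - ∏ l, (Function.update g i (deriv (g i))) l (x l)
  else 0

lemma elem_streamF (i j : Fin 3) (hij : i ≠ j) (g : Fin 3 → ℝ → ℝ) (hg : ∀ l, Eff1 (g l))
    (hs : ∀ l, Supp (g l)) : Elem (streamF i j g) := by
  have hgj : ∀ l, Eff1 ((Function.update g j (deriv (g j))) l) := fun l => by
    by_cases h : l = j
    · subst h; rw [Function.update_self]; exact (hg l).deriv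
    · rw [Function.update_of_ne h]; exact hg l
  have hsj : ∀ l, Supp ((Function.update g j (deriv (g j))) l) := fun l => by
    by_cases h : l = j
    · subst h; rw [Function.update_self]; exact (hs l).deriv
    · rw [Function.update_of_ne h]; exact hs l
  have hgi : ∀ l, Eff1 ((Function.update g i (deriv (g i))) l) := fun l => by
    by_cases h : l = i
    · subst h; rw [Function.update_self]; exact (hg l).deriv
    · rw [Function.update_of_ne h]; exact hg l
  have hsi : ∀ l, Supp ((Function.update g i (deriv (g i))) l) := fun l => by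
    by_cases h : l = i
    · subst h; rw [Function.update_self]; exact (hs l).deriv
    · rw [Function.update_of_ne h]; exact hs l
  have hji : j ≠ i := Ne.symm hij
  have hcomp : ∀ c, ∃ g' : Fin 3 → ℝ → ℝ, (∀ l, Eff1 (g' l)) ∧ (∀ l, Supp (g' l)) ∧
      ∀ x, streamF i j g x c = ∏ l, g' l (x l) := by
    intro c
    by_cases h1 : c = i
    · exact ⟨_, hgj, hsj, fun x => by unfold streamF; rw [if_pos h1]⟩
    · by_cases h2 : c = j
      · refine ⟨fun l x => if l = 0 then ((-1 : ℚ) : ℝ) *
          (Function.update g i (deriv (g i))) l x else (Function.update g i (deriv (g i))) l x,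
          fun l => ?_, fun l => ?_, fun x => ?_⟩
        · by_cases hl : l = 0
          · simp only [hl, if_true]; exact (hgi 0).const_mul (-1)
          · simp only [hl, if_false]; exact hgi l
        · by_cases hl : l = 0
          · simp only [hl, if_true]; exact (hsi 0).const_mul _
          · simp only [hl, if_false]; exact hsi l
        · unfold streamF
          rw [if_neg h1, if_pos h2, Fin.prod_univ_three, Fin.prod_univ_three]
          simp
      · exact ⟨fun _ _ => 0, fun _ => eff_zero, fun _ => supp_zero, fun x => by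
          unfold streamF; rw [if_neg h1, if_neg h2]; simp⟩
  refine ⟨hcomp, fun x => ?_⟩
  have hsm : ContDiff ℝ (⊤ : ℕ∞) (streamF i j g) := by
    rw [contDiff_pi]
    intro c
    obtain ⟨g', hg', -, hgV⟩ := hcomp c
    have : (fun x => streamF i j g x c) = fun x => ∏ l, g' l (x l) := funext hgV
    rw [this]
    exact contDiff_prod fun l _ => (hg' l).1.comp (contDiff_apply ℝ ℝ l)
  have hd := hsm.differentiable (by simp) x
  simp_rw [fderiv_sp_apply hd]
  -- components
  have ei : (fun x => streamF i j g x i)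
      = fun x => ∏ l, (Function.update g j (deriv (g j))) l (x l) := by
    funext x; unfold streamF; rw [if_pos rfl]
  have ej : (fun x => streamF i j g x j)
      = fun x => - ∏ l, (Function.update g i (deriv (g i))) l (x l) := by
    funext x; unfold streamF; rw [if_neg hji, if_pos rfl]
  have ek : ∀ c, c ≠ i → c ≠ j → (fun x => streamF i j g x c) = fun _ => 0 := by
    intro c h1 h2
    funext x; unfold streamF; rw [if_neg h1, if_neg h2]
  have hsum : ∑ c, fderiv ℝ (fun x => streamF i j g x c) x (Pi.single c 1)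
      = fderiv ℝ (fun x => streamF i j g x i) x (Pi.single i 1)
      + fderiv ℝ (fun x => streamF i j g x j) x (Pi.single j 1) := by
    rw [← Finset.sum_subset (Finset.subset_univ {i, j}), Finset.sum_pair hij]
    intro c _ hc
    simp only [Finset.mem_insert, Finset.mem_singleton, not_or] at hc
    rw [ek c hc.1 hc.2]
    simp
  rw [hsum, ei, ej, fderiv_sprod (fun l => (hgj l).1)]
  have : fderiv ℝ (fun x : Sp => - ∏ l, (Function.update g i (deriv (g i))) l (x l)) x
      = - fderiv ℝ (fun x : Sp => ∏ l, (Function.update g i (deriv (g i))) l (x l)) x :=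
    fderiv_fun_neg
  rw [this, neg_apply, fderiv_sprod (fun l => (hgi l).1), Function.update_of_ne hij,
    Function.update_of_ne hji, Function.update_comm hij, add_neg_cancel]

/-- Existence of elementary fields that are shears on a box and vanish away from it. -/
lemma exists_elem (i j : Fin 3) (hij : i ≠ j) (c0 c1 : ℚ) (lo hi : Fin 3 → ℚ)
    (hlh : ∀ l, lo l ≤ hi l) (δ : ℚ) (hδ : 0 < δ) :
    ∃ V : Sp → Sp, Elem V ∧
      (∀ x : Sp, (∀ l, (lo l : ℝ) < x l ∧ x l < hi l) →
        V x = Pi.single i ((c0 : ℝ) + c1 * x j)) ∧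
      (∀ x : Sp, (∃ l, x l < (lo l : ℝ) - δ ∨ (hi l : ℝ) + δ < x l) → V x = 0) := by
  have hji : j ≠ i := Ne.symm hij
  let X : Fin 3 → ℝ → ℝ := fun l => chi (lo l) (hi l) δ
  let P : ℝ → ℝ := fun y => (c0 : ℝ) * (y * X j y) + ((c1 / 2 : ℚ) : ℝ) * (y * (y * X j y))
  let g : Fin 3 → ℝ → ℝ := fun l => if l = j then P else X l
  have hX : ∀ l, Eff1 (X l) := fun l => eff_chi _ _ _
  have hXs : ∀ l, Supp (X l) := fun l => supp_chi hδ (hlh l)
  have hP : Eff1 P := (((hX j).mul_x (hXs j)).const_mul c0).add
    ((((hX j).mul_x (hXs j)).mul_x (hXs j).mul_x).const_mul (c1 / 2))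
  have hPs : Supp P := (((hXs j).mul_x).const_mul _).add ((((hXs j).mul_x).mul_x).const_mul _)
  have hg : ∀ l, Eff1 (g l) := fun l => by
    by_cases h : l = j
    · simp only [g, h, if_true]; exact hP
    · simp only [g, h, if_false]; exact hX l
  have hgs : ∀ l, Supp (g l) := fun l => by
    by_cases h : l = j
    · simp only [g, h, if_true]; exact hPs
    · simp only [g, h, if_false]; exact hXs l
  refine ⟨streamF i j g, elem_streamF i j hij g hg hgs, fun x hx => ?_, fun x hx => ?_⟩
  · -- inside
    have hX1 : ∀ l, X l =ᶠ[𝓝 (x l)] fun _ => 1 := fun l => by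
      filter_upwards [Ioo_mem_nhds (hx l).1 (hx l).2] with y hy
      exact chi_one hδ hy.1.le hy.2.le
    have hgj : deriv (g j) (x j) = c0 + c1 * x j := by
      have e : g j =ᶠ[𝓝 (x j)] fun y => (c0:ℝ) * y + ((c1 / 2 : ℚ) : ℝ) * y ^ 2 := by
        filter_upwards [hX1 j] with y hy
        simp only [g, if_true, P, hy, mul_one]
        ring
      rw [e.deriv_eq]
      have h1 : HasDerivAt (fun y : ℝ => (c0:ℝ) * y + ((c1 / 2 : ℚ) : ℝ) * y ^ 2)
          ((c0:ℝ) * 1 + ((c1 / 2 : ℚ) : ℝ) * (2 * x j)) (x j) := by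
        refine ((hasDerivAt_id (x j)).const_mul (c0:ℝ)).add ?_
        have := (hasDerivAt_pow 2 (x j)).const_mul ((c1 / 2 : ℚ) : ℝ)
        simpa using this
      rw [h1.deriv]
      push_cast
      ring
    have hgi : deriv (g i) (x i) = 0 := by
      have e : g i =ᶠ[𝓝 (x i)] fun _ => 1 := by
        filter_upwards [hX1 i] with y hy
        simp only [g, hij, if_false, hy]
      rw [e.deriv_eq]
      simp
    have hg1 : ∀ l, l ≠ j → g l (x l) = 1 := fun l hl => by
      simp only [g, hl, if_false]
      exact (hX1 l).eq_of_nhds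
    funext c
    unfold streamF
    by_cases h1 : c = i
    · subst h1
      rw [if_pos rfl, Pi.single_eq_same, ← Finset.mul_prod_erase Finset.univ _ (Finset.mem_univ j),
        Function.update_self, hgj, Finset.prod_eq_one, mul_one]
      intro l hl
      have hl' := Finset.ne_of_mem_erase hl
      rw [Function.update_of_ne hl']
      exact hg1 l hl'
    · rw [if_neg h1, Pi.single_eq_of_ne h1]
      by_cases h2 : c = j
      · rw [if_pos h2, ← Finset.mul_prod_erase Finset.univ _ (Finset.mem_univ i),
          Function.update_self, hgi, zero_mul, neg_zero]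
      · rw [if_neg h2]
  · -- outside
    obtain ⟨l, hl⟩ := hx
    have hX0 : X l =ᶠ[𝓝 (x l)] fun _ => 0 := by
      rcases hl with hl | hl
      · filter_upwards [Iio_mem_nhds hl] with y hy
        exact chi_zero_left hδ (hlh l) hy.le
      · filter_upwards [Ioi_mem_nhds hl] with y hy
        exact chi_zero_right hδ (hlh l) hy.le
    have hg0 : g l =ᶠ[𝓝 (x l)] fun _ => 0 := by
      by_cases h : l = j
      · filter_upwards [hX0] with y hy
        subst h
        simp only [g, if_true, P, hy, mul_zero, add_zero]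
      · filter_upwards [hX0] with y hy
        simp only [g, h, if_false, hy]
    have hfac : ∀ m, (Function.update g m (deriv (g m))) l (x l) = 0 := by
      intro m
      by_cases h : l = m
      · subst h
        rw [Function.update_self, hg0.deriv_eq]
        simp
      · rw [Function.update_of_ne h]
        exact hg0.eq_of_nhds
    funext c
    unfold streamF
    have hz : ∀ m, ∏ l, (Function.update g m (deriv (g m))) l (x l) = 0 := fun m =>
      Finset.prod_eq_zero (Finset.mem_univ l) (hfac m)
    rw [hz, hz]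
    simp

/-! ### actions and chains -/

/-- straight-line action -/
def Acts (V : Sp → Sp) (x y : Sp) : Prop :=
  ∀ s ∈ Icc (0:ℝ) 1, V (x + s • (y - x)) = y - x

lemma Acts.det {V : Sp → Sp} {x y y' : Sp} (h : Acts V x y) (h' : Acts V x y') : y = y' := by
  have h1 := h 0 (by simp)
  have h2 := h' 0 (by simp)
  rw [zero_smul, add_zero] at h1 h2
  rw [h1] at h2
  exact sub_left_inj.mp h2

lemma Acts.neg {V : Sp → Sp} {x y : Sp} (h : Acts V x y) : Acts (fun z => - V z) y x := by
  intro s hs
  have h1 := h (1 - s) ⟨by linarith [hs.2], by linarith [hs.1]⟩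
  have e : x + (1 - s) • (y - x) = y + s • (x - y) := by module
  rw [e] at h1
  show - V (y + s • (x - y)) = x - y
  rw [h1]; abel

lemma acts_stay {V : Sp → Sp} {x : Sp} (h : V x = 0) : Acts V x x := by
  intro s _
  rw [sub_self, smul_zero, add_zero, h]

/-- successive actions -/
def Chain : List (Sp → Sp) → Sp → Sp → Prop
  | [], x, y => x = y
  | V :: Vs, x, y => ∃ w, Acts V x w ∧ Chain Vs w y

lemma Chain.det : ∀ {Vs : List (Sp → Sp)} {x y y' : Sp}, Chain Vs x y → Chain Vs x y' → y = y'
  | [], x, y, y', h, h' => h.symm.trans h'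
  | V :: Vs, x, y, y', ⟨w, h1, h2⟩, ⟨w', h1', h2'⟩ => by
    have := h1.det h1'
    subst this
    exact h2.det h2'

lemma Chain.append {Vs Ws : List (Sp → Sp)} {x y z : Sp} (h : Chain Vs x y)
    (h' : Chain Ws y z) : Chain (Vs ++ Ws) x z := by
  induction Vs generalizing x with
  | nil =>
    have : x = y := h
    subst this
    exact h'
  | cons V Vs ih =>
    obtain ⟨w, h1, h2⟩ := h
    exact ⟨w, h1, ih h2⟩

lemma Chain.reverse {Vs : List (Sp → Sp)} {x y : Sp} (h : Chain Vs x y) :
    Chain ((Vs.map fun V => fun z => - V z).reverse) y x := by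
  induction Vs generalizing x with
  | nil =>
    have : x = y := h
    exact this.symm
  | cons V Vs ih =>
    obtain ⟨w, h1, h2⟩ := h
    rw [List.map_cons, List.reverse_cons]
    exact (ih h2).append ⟨x, h1.neg, rfl⟩

lemma Chain.points {Vs : List (Sp → Sp)} {x y : Sp} (h : Chain Vs x y) :
    ∃ z : ℕ → Sp, z 0 = x ∧ z Vs.length = y ∧
      ∀ m < Vs.length, Acts (Vs.getD m fun _ => 0) (z m) (z (m + 1)) := by
  induction Vs generalizing x with
  | nil =>
    have : x = y := h
    exact ⟨fun _ => x, rfl, this, fun m hm => absurd hm (by simp)⟩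
  | cons V Vs ih =>
    obtain ⟨w, h1, h2⟩ := h
    obtain ⟨z, hz0, hz1, hz2⟩ := ih h2
    refine ⟨fun m => Nat.casesOn m x z, rfl, hz1, fun m hm => ?_⟩
    cases m with
    | zero =>
      show Acts V x (z 0)
      rw [hz0]; exact h1
    | succ m =>
      have hm' : m < Vs.length := by simpa using hm
      exact hz2 m hm'

/-! ### global solutions -/

lemma exists_global (U : Field) (hU : ContDiff ℝ (⊤ : ℕ∞) U) (hc : HasCompactSupport U)
    (ht : ∀ p : ℝ × (Fin 3 → ℝ), p.1 ∉ Icc (1 / 4 : ℝ) (3 / 4) → U p = 0) (x : Sp) :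
    ∃ γ : ℝ → Sp, γ 0 = x ∧ ∀ t, HasDerivAt γ (U (t, γ t)) t := by
  obtain ⟨K, hK⟩ := hU.lipschitzWith_of_hasCompactSupport hc (by simp)
  obtain ⟨L, hL⟩ := hc.exists_bound_of_continuous hU.continuous
  have hL0 : 0 ≤ L := (norm_nonneg _).trans (hL 0)
  have hPL : IsPicardLindelof (fun t x => U (t, x)) (⟨0, by simp⟩ : Icc (0:ℝ) 1) x
      (⟨L, hL0⟩ : NNReal) 0 (⟨L, hL0⟩ : NNReal) K := by
    refine ⟨fun t _ => ?_, fun y _ => ?_, fun t _ y _ => hL _, ?_⟩
    · refine LipschitzWith.lipschitzOnWith ?_
      refine LipschitzWith.of_dist_le_mul fun y z => ?_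
      have := hK.dist_le_mul (t, y) (t, z)
      rw [Prod.dist_eq, dist_self, max_eq_right dist_nonneg] at this
      exact this
    · exact (hU.continuous.comp (by fun_prop)).continuousOn
    · show L * max (1 - 0) (0 - 0) ≤ L - 0
      norm_num
  obtain ⟨α, hα0, hα⟩ := hPL.exists_eq_forall_mem_Icc_hasDerivWithinAt₀
  have hα0' : α 0 = x := hα0
  have h0 : ∀ y, U ((0:ℝ), y) = 0 := fun y => ht _ (by norm_num)
  have h1 : ∀ y, U ((1:ℝ), y) = 0 := fun y => ht _ (by norm_num)
  let γ : ℝ → Sp := fun t => if t < 0 then x else if 1 < t then α 1 else α t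
  have hγm : ∀ t ∈ Icc (0:ℝ) 1, γ t = α t := fun t h => by
    simp only [γ, not_lt.mpr h.1, not_lt.mpr h.2, if_false]
  have hγl : ∀ t, t ≤ 0 → γ t = x := fun t h => by
    rcases h.lt_or_eq with h | h
    · simp only [γ, h, if_true]
    · rw [h, hγm 0 (by simp), hα0']
  have hγr : ∀ t, 1 ≤ t → γ t = α 1 := fun t h => by
    rcases h.lt_or_eq with h | h
    · have : ¬ t < 0 := by linarith
      simp only [γ, this, h, if_false, if_true]
    · rw [← h, hγm 1 (by simp)]
  refine ⟨γ, hγl 0 le_rfl, fun t => ?_⟩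
  have hW : ∀ s ∈ Icc (0:ℝ) 1, HasDerivWithinAt γ (U (s, γ s)) (Icc 0 1) s := fun s hs => by
    rw [hγm s hs]
    exact (hα s hs).congr (fun r hr => hγm r hr) (hγm s hs)
  rcases lt_trichotomy t 0 with h | h | h
  · rw [ht (t, γ t) (by simp only [mem_Icc, not_and_or]; left; linarith)]
    have e : γ =ᶠ[𝓝 t] fun _ => x := by
      filter_upwards [Iio_mem_nhds h] with s hs
      exact hγl s (le_of_lt hs)
    exact (hasDerivAt_const t x).congr_of_eventuallyEq e
  · subst h
    have hl : HasDerivWithinAt γ (U ((0:ℝ), γ 0)) (Iic 0) 0 := by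
      rw [h0]
      exact (hasDerivWithinAt_const (0:ℝ) (Iic 0) x).congr (fun s hs => hγl s hs) (hγl 0 le_rfl)
    have hr := hW 0 (by simp)
    refine (hl.union hr).hasDerivAt ?_
    refine Filter.mem_of_superset (Iio_mem_nhds (zero_lt_one : (0:ℝ) < 1)) fun s hs => ?_
    rcases le_total s 0 with h | h
    · exact Or.inl h
    · exact Or.inr ⟨h, le_of_lt hs⟩
  · rcases lt_trichotomy t 1 with h' | h' | h'
    · exact (hW t ⟨h.le, h'.le⟩).hasDerivAt (Icc_mem_nhds h h')
    · subst h'
      have hr : HasDerivWithinAt γ (U ((1:ℝ), γ 1)) (Ici 1) 1 := by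
        rw [h1]
        exact (hasDerivWithinAt_const (1:ℝ) (Ici 1) (α 1)).congr (fun s hs => hγr s hs)
          (hγr 1 le_rfl)
      have hl := hW 1 (by simp)
      refine (hl.union hr).hasDerivAt ?_
      refine Filter.mem_of_superset (Ioi_mem_nhds (zero_lt_one : (0:ℝ) < 1)) fun s hs => ?_
      rcases le_total s 1 with h | h
      · exact Or.inl ⟨le_of_lt hs, h⟩
      · exact Or.inr h
    · rw [ht (t, γ t) (by simp only [mem_Icc, not_and_or]; right; linarith)]
      have e : γ =ᶠ[𝓝 t] fun _ => α 1 := by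
        filter_upwards [Ioi_mem_nhds h'] with s hs
        exact hγr s (le_of_lt hs)
      exact (hasDerivAt_const t (α 1)).congr_of_eventuallyEq e

end Crest.Agent.H4
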