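import Mathlib
import Crest.Agent.H4.BoxField

/-! Concatenating elementary fields in time. -/

set_option autoImplicit false
set_option linter.unusedVariables false

namespace Crest.Agent.H4

open Fab QComp Filter Topology Crest.AnalysisR.BoxFlow Set

lemma Elem.supp {V : Sp → Sp} (h : Elem V) : ∃ R : ℝ, ∀ x : Sp, (∃ l, R < |x l|) → V x = 0 := by
  choose g hg hs hgV using h.1
  choose R hR using hs
  refine ⟨∑ c, ∑ l, (R c l : ℝ), fun x hx => ?_⟩
  obtain ⟨l, hl⟩ := hx
  funext c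
  rw [hgV c x]
  refine Finset.prod_eq_zero (Finset.mem_univ l) (hR c l _ ?_)
  refine lt_of_le_of_lt ?_ hl
  calc (R c l : ℝ) ≤ ∑ l, (R c l : ℝ) :=
        Finset.single_le_sum (f := fun l => (R c l : ℝ)) (fun _ _ => Nat.cast_nonneg _)
          (Finset.mem_univ l)
    _ ≤ ∑ c, ∑ l, (R c l : ℝ) :=
        Finset.single_le_sum (f := fun c => ∑ l, (R c l : ℝ))
          (fun _ _ => Finset.sum_nonneg fun _ _ => Nat.cast_nonneg _) (Finset.mem_univ c)

/-- the time profile of the `m`-th of `N` windows -/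
noncomputable def sg (N m : ℕ) (t : ℝ) : ℝ :=
  F (((2 * N : ℚ) : ℝ) * t + ((-(N / 2 + m) : ℚ) : ℝ))

lemma sg_arg (N m : ℕ) (t : ℝ) : ((2 * N : ℚ) : ℝ) * t + ((-(N / 2 + m) : ℚ) : ℝ)
    = 2 * N * t - (N / 2 + m) := by push_cast; ring

lemma eff_sg (N m : ℕ) : Eff1 (sg N m) := eff_F.affine _ _

lemma sg_hasDeriv (N m : ℕ) (t : ℝ) : HasDerivAt (sg N m) (deriv (sg N m) t) t :=
  ((eff_sg N m).1.differentiable (by simp) t).hasDerivAt

lemma sg_zero (N m : ℕ) (t : ℝ) (h : 2 * N * t ≤ N / 2 + m) : sg N m t = 0 := by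
  unfold sg
  rw [sg_arg]
  exact F_good.zero _ (by linarith)

lemma sg_one (N m : ℕ) (t : ℝ) (h : (N:ℝ) / 2 + m + 1 ≤ 2 * N * t) : sg N m t = 1 := by
  unfold sg
  rw [sg_arg]
  exact F_good.one _ (by linarith)

lemma deriv_sg_ne (N m : ℕ) (t : ℝ) (h : deriv (sg N m) t ≠ 0) :
    (N:ℝ) / 2 + m < 2 * N * t ∧ 2 * N * t < N / 2 + m + 1 := by
  have h1 : HasDerivAt (fun t : ℝ => ((2 * N : ℚ) : ℝ) * t + ((-(N / 2 + m) : ℚ) : ℝ))
      ((2 * N : ℚ) : ℝ) t := by
    simpa using ((hasDerivAt_id t).const_mul ((2 * N : ℚ) : ℝ)).add_const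
      ((-(N / 2 + m) : ℚ) : ℝ)
  have h2 := HasDerivAt.comp (h₂ := F) t (F_hasDeriv _) h1
  have h3 : HasDerivAt (sg N m) _ t := h2
  rw [h3.deriv] at h
  simp only [sg_arg] at h
  by_contra hcon
  rw [not_and_or, not_lt, not_lt] at hcon
  apply h
  rcases hcon with hc | hc
  · rw [F_good.zero _ (by linarith), F_good.zero _ (by linarith)]; ring
  · rw [F_good.one _ (by linarith), F_good.one _ (by linarith)]; ring

/-- the concatenated field -/
noncomputable def catF (Vs : List (Sp → Sp)) : Field := fun p =>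
  ∑ m ∈ Finset.range Vs.length, deriv (sg Vs.length m) p.1 • (Vs.getD m fun _ => 0) p.2

lemma getD_elem {Vs : List (Sp → Sp)} (hV : ∀ V ∈ Vs, Elem V) (m : ℕ) :
    Elem (Vs.getD m fun _ => 0) := by
  rcases lt_or_ge m Vs.length with h | h
  · rw [List.getD_eq_getElem _ _ h]
    exact hV _ (List.getElem_mem h)
  · rw [List.getD_eq_default _ _ h]
    exact Elem.zero

lemma effS_sum {ι : Type} (s : Finset ι) (f : ι → ℝ × (Fin 3 → ℝ) → ℝ) (hf : ∀ i, EffS (f i)) :
    EffS (fun p => ∑ i ∈ s, f i p) := by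
  classical
  induction s using Finset.induction_on with
  | empty => simpa using effS_zero
  | insert i s hi ih =>
    have e : (fun p => ∑ i ∈ insert i s, f i p) = fun p => f i p + ∑ i ∈ s, f i p := by
      funext p; rw [Finset.sum_insert hi]
    rw [e]
    exact (hf i).add ih

lemma effS_term {θ : ℝ → ℝ} (hθ : Eff1 θ) {V : Sp → Sp} (hV : Elem V) (c : Fin 3) :
    EffS (fun p => θ p.1 * V p.2 c) := by
  obtain ⟨g, hg, -, hgV⟩ := hV.1 c
  have h := effS_prodF (g := fun d => if h : d = 0 then θ else g (d.pred h)) (fun d => by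
    by_cases h : d = 0
    · simp only [h, dif_pos]; exact hθ
    · simp only [h, dif_neg, not_false_eq_true]; exact hg _)
  have e : prodF (fun d => if h : d = 0 then θ else g (d.pred h))
      = fun p => θ p.1 * V p.2 c := by
    funext p
    unfold prodF
    rw [Fin.prod_univ_succ, hgV]
    simp [co]
  rwa [e] at h

lemma effS_cat {Vs : List (Sp → Sp)} (hV : ∀ V ∈ Vs, Elem V) (c : Fin 3) :
    EffS (fun p => catF Vs p c) := by
  have e : (fun p => catF Vs p c) = fun p => ∑ m ∈ Finset.range Vs.length,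
      deriv (sg Vs.length m) p.1 * (Vs.getD m fun _ => 0) p.2 c := by
    funext p
    unfold catF
    rw [Finset.sum_apply]
    rfl
  rw [e]
  exact effS_sum _ _ fun m => effS_term (eff_sg _ _).deriv (getD_elem hV m) c

lemma cat_time {Vs : List (Sp → Sp)} (p : ℝ × (Fin 3 → ℝ))
    (hp : p.1 ∉ Icc (1 / 4 : ℝ) (3 / 4)) : catF Vs p = 0 := by
  unfold catF
  refine Finset.sum_eq_zero fun m hm => ?_
  rw [Finset.mem_range] at hm
  have hN : (0:ℝ) < Vs.length := by
    have : 0 < Vs.length := by omega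
    exact_mod_cast this
  have hm' : (m:ℝ) + 1 ≤ Vs.length := by exact_mod_cast hm
  by_cases h : deriv (sg Vs.length m) p.1 = 0
  · rw [h, zero_smul]
  · exfalso
    obtain ⟨h1, h2⟩ := deriv_sg_ne _ _ _ h
    apply hp
    have hm0 : (0:ℝ) ≤ m := Nat.cast_nonneg m
    constructor
    · by_contra hc
      push Not at hc
      have : 2 * (Vs.length:ℝ) * p.1 < 2 * Vs.length * (1/4) :=
        mul_lt_mul_of_pos_left hc (by positivity)
      linarith
    · by_contra hc
      push Not at hc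
      have : 2 * (Vs.length:ℝ) * (3/4) < 2 * Vs.length * p.1 :=
        mul_lt_mul_of_pos_left hc (by positivity)
      linarith

lemma cat_compact {Vs : List (Sp → Sp)} (hV : ∀ V ∈ Vs, Elem V) :
    HasCompactSupport (catF Vs) := by
  choose R hR using fun m => (getD_elem hV m).supp
  set R' : ℝ := ∑ m ∈ Finset.range Vs.length, |R m| with hR'
  refine HasCompactSupport.intro (K := Icc (1/4 : ℝ) (3/4) ×ˢ Metric.closedBall (0 : Sp) R')
    (isCompact_Icc.prod (isCompact_closedBall _ _)) fun p hp => ?_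
  rw [mem_prod, not_and_or] at hp
  rcases hp with hp | hp
  · exact cat_time p hp
  · unfold catF
    refine Finset.sum_eq_zero fun m hm => ?_
    rw [hR m p.2, smul_zero]
    rw [mem_closedBall_zero_iff, not_le] at hp
    have hR0 : 0 ≤ R' := Finset.sum_nonneg fun _ _ => abs_nonneg _
    have hle : R m ≤ R' := (le_abs_self _).trans
      (Finset.single_le_sum (f := fun m => |R m|) (fun _ _ => abs_nonneg _) hm)
    by_contra hcon
    push Not at hcon
    have : ‖p.2‖ ≤ R' := (pi_norm_le_iff_of_nonneg hR0).mpr fun l =>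
      (hcon l).trans hle
    linarith

lemma cat_div {Vs : List (Sp → Sp)} (hV : ∀ V ∈ Vs, Elem V) (p : ℝ × (Fin 3 → ℝ)) :
    spaceDiv (catF Vs) p = 0 := by
  have hsm := (effective_of_comp (fun j => effS_cat hV j)).1
  have hd := hsm.differentiable (by simp) p
  have key : ∀ v : Sp, fderiv ℝ (catF Vs) p (0, v) = ∑ m ∈ Finset.range Vs.length,
      deriv (sg Vs.length m) p.1 • fderiv ℝ (Vs.getD m fun _ => 0) p.2 v := by
    intro v
    rw [← hd.lineDeriv_eq_fderiv]
    unfold lineDeriv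
    have e : (fun t : ℝ => catF Vs (p + t • ((0:ℝ), v)))
        = fun t : ℝ => ∑ m ∈ Finset.range Vs.length,
          deriv (sg Vs.length m) p.1 • (Vs.getD m fun _ => 0) (p.2 + t • v) := by
      funext t
      unfold catF
      simp
    rw [e]
    have h1 : HasDerivAt (fun t : ℝ => p.2 + t • v) v 0 := by
      simpa using ((hasDerivAt_id (0:ℝ)).smul_const v).const_add p.2
    have h2 : HasDerivAt (fun t : ℝ => ∑ m ∈ Finset.range Vs.length,
          deriv (sg Vs.length m) p.1 • (Vs.getD m fun _ => 0) (p.2 + t • v))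
        (∑ m ∈ Finset.range Vs.length,
          deriv (sg Vs.length m) p.1 • fderiv ℝ (Vs.getD m fun _ => 0) (p.2 + (0:ℝ) • v) v) 0 := by
      refine HasDerivAt.fun_sum fun m _ => ?_
      have h3 : HasFDerivAt (Vs.getD m fun _ => 0)
          (fderiv ℝ (Vs.getD m fun _ => 0) (p.2 + (0:ℝ) • v)) (p.2 + (0:ℝ) • v) :=
        ((getD_elem hV m).smooth.differentiable (by simp) _).hasFDerivAt
      exact (h3.comp_hasDerivAt (0:ℝ) h1).const_smul (deriv (sg Vs.length m) p.1)
    rw [h2.deriv, zero_smul, add_zero]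
  unfold spaceDiv
  simp_rw [key, Finset.sum_apply]
  rw [Finset.sum_comm]
  refine Finset.sum_eq_zero fun m _ => ?_
  simp only [Pi.smul_apply, smul_eq_mul]
  rw [← Finset.mul_sum, (getD_elem hV m).2, mul_zero]

lemma traj (N : ℕ) (V : ℕ → Sp → Sp) (z : ℕ → Sp) (hz : ∀ m < N, Acts (V m) (z m) (z (m + 1))) :
    ∃ γ : ℝ → Sp, γ 0 = z 0 ∧ γ 1 = z N ∧ ∀ t : ℝ, HasDerivAt γ
      (∑ m ∈ Finset.range N, deriv (sg N m) t • V m (γ t)) t := by
  let γ : ℝ → Sp := fun t => z 0 + ∑ m ∈ Finset.range N, sg N m t • (z (m + 1) - z m)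
  have htel : ∀ k, z 0 + ∑ m ∈ Finset.range k, (z (m + 1) - z m) = z k := fun k => by
    rw [Finset.sum_range_sub]; abel
  refine ⟨γ, ?_, ?_, fun t => ?_⟩
  · show z 0 + _ = z 0
    rw [Finset.sum_eq_zero, add_zero]
    intro m _
    rw [sg_zero, zero_smul]
    rw [mul_zero]; positivity
  · show z 0 + _ = z N
    rw [← htel N]
    congr 1
    refine Finset.sum_congr rfl fun m hm => ?_
    rw [Finset.mem_range] at hm
    have hm' : (m:ℝ) + 1 ≤ N := by exact_mod_cast hm
    rw [sg_one N m 1 (by linarith), one_smul]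
  · have h0 : HasDerivAt (fun t : ℝ => ∑ m ∈ Finset.range N, sg N m t • (z (m + 1) - z m))
        (∑ m ∈ Finset.range N, deriv (sg N m) t • (z (m + 1) - z m)) t :=
      HasDerivAt.fun_sum fun m _ => (sg_hasDeriv N m t).smul_const _
    have h1 : HasDerivAt γ (∑ m ∈ Finset.range N, deriv (sg N m) t • (z (m + 1) - z m)) t :=
      h0.const_add (z 0)
    refine h1.congr_deriv ?_
    refine Finset.sum_congr rfl fun m hm => ?_
    rw [Finset.mem_range] at hm
    by_cases h0 : deriv (sg N m) t = 0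
    · rw [h0, zero_smul, zero_smul]
    congr 1
    obtain ⟨h2, h3⟩ := deriv_sg_ne N m t h0
    have hpos : γ t = z m + sg N m t • (z (m + 1) - z m) := by
      show z 0 + ∑ k ∈ Finset.range N, sg N k t • (z (k + 1) - z k) = _
      have hsplit : ∑ k ∈ Finset.range N, sg N k t • (z (k + 1) - z k)
          = ∑ k ∈ Finset.range (m + 1), sg N k t • (z (k + 1) - z k) := by
        refine (Finset.sum_subset (Finset.range_subset_range.mpr hm) fun k hk hk2 => ?_).symm
        rw [Finset.mem_range] at hk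
        rw [Finset.mem_range, not_lt] at hk2
        have : (m:ℝ) + 1 ≤ k := by exact_mod_cast hk2
        rw [sg_zero N k t (by linarith), zero_smul]
      rw [hsplit, Finset.sum_range_succ, ← add_assoc]
      congr 1
      rw [← htel m]
      congr 1
      refine Finset.sum_congr rfl fun k hk => ?_
      rw [Finset.mem_range] at hk
      have : (k:ℝ) + 1 ≤ m := by exact_mod_cast hk
      rw [sg_one N k t (by linarith), one_smul]
    rw [hpos]
    have hs : sg N m t ∈ Icc (0:ℝ) 1 := ⟨F_good.nonneg _, F_good.le_one _⟩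
    exact (hz m hm _ hs).symm

theorem field_of_list (Vs : List (Sp → Sp)) (hV : ∀ V ∈ Vs, Elem V) :
    ContDiff ℝ (⊤ : ℕ∞) (catF Vs) ∧ HasCompactSupport (catF Vs) ∧ Effective (catF Vs) ∧
    (∀ p : ℝ × (Fin 3 → ℝ), p.1 ∉ Icc (1 / 4 : ℝ) (3 / 4) → catF Vs p = 0) ∧
    (∀ p : ℝ × (Fin 3 → ℝ), spaceDiv (catF Vs) p = 0) ∧
    ∃ Φ : ℝ → Sp → Sp, IsFlow (catF Vs) Φ ∧ ∀ x y, Chain Vs x y → Φ 1 x = y := by
  obtain ⟨hsm, heff⟩ := effective_of_comp (fun j => effS_cat hV j)
  refine ⟨hsm, cat_compact hV, heff, cat_time, cat_div hV, ?_⟩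
  have hex : ∀ x : Sp, ∃ γ : ℝ → Sp, (γ 0 = x ∧ ∀ t, HasDerivAt γ (catF Vs (t, γ t)) t) ∧
      ∀ y, Chain Vs x y → γ 1 = y := by
    intro x
    by_cases h : ∃ y, Chain Vs x y
    · obtain ⟨y, hy⟩ := h
      obtain ⟨z, hz0, hz1, hz2⟩ := hy.points
      obtain ⟨γ, h0, h1, h2⟩ := traj Vs.length (fun m => Vs.getD m fun _ => 0) z hz2
      refine ⟨γ, ⟨h0.trans hz0, h2⟩, fun y' hy' => ?_⟩
      rw [h1, hz1]
      exact hy.det hy'
    · obtain ⟨γ, h0, h1⟩ := exists_global (catF Vs) hsm (cat_compact hV) cat_time x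
      exact ⟨γ, ⟨h0, h1⟩, fun y hy => absurd ⟨y, hy⟩ h⟩
  choose γ hγ1 hγ2 using hex
  exact ⟨fun t x => γ x t, ⟨fun x => (hγ1 x).1, fun t x => (hγ1 x).2 t⟩,
    fun x y hxy => hγ2 x y hxy⟩

end Crest.Agent.H4
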