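import Mathlib
import Crest.Agent.H4.BoxTime

/-! Motion planning for disjoint boxes. -/

set_option autoImplicit false
set_option linter.unusedVariables false

namespace Crest.Agent.H4

open Filter Topology Crest.AnalysisR.BoxFlow Set

/-- the diagonal affine map carrying the box `(a,h)` to `(b,k)` -/
noncomputable def dmap (a h b k : Fin 3 → ℚ) (x : Sp) : Sp :=
  fun j => (b j : ℝ) + ((k j / h j : ℚ) : ℝ) * (x j - (a j : ℝ))

lemma dmap_cont (a h b k : Fin 3 → ℚ) : Continuous (dmap a h b k) := by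
  unfold dmap; fun_prop

lemma dmap_self (a h : Fin 3 → ℚ) (hh : ∀ j, 0 < h j) (x : Sp) : dmap a h a h x = x := by
  funext j
  unfold dmap
  rw [div_self (hh j).ne']
  push_cast; ring

lemma dmap_comp (a h b k c m : Fin 3 → ℚ) (hh : ∀ j, 0 < h j) (hk : ∀ j, 0 < k j) (x : Sp) :
    dmap b k c m (dmap a h b k x) = dmap a h c m x := by
  funext j
  unfold dmap
  have h1 : (h j : ℝ) ≠ 0 := by exact_mod_cast (hh j).ne'
  have h2 : (k j : ℝ) ≠ 0 := by exact_mod_cast (hk j).ne'
  push_cast
  field_simp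
  ring

lemma dmap_box (a h b k : Fin 3 → ℚ) (hh : ∀ j, 0 < h j) (hk : ∀ j, 0 < k j) {x : Sp}
    (hx : x ∈ box a h) : dmap a h b k x ∈ box b k := by
  intro j
  have h1 : (0:ℝ) < h j := by exact_mod_cast hh j
  have h2 : (0:ℝ) < k j := by exact_mod_cast hk j
  unfold dmap
  rw [add_sub_cancel_left, abs_mul]
  push_cast
  rw [abs_of_pos (div_pos h2 h1)]
  calc (k j : ℝ) / h j * |x j - a j| ≤ (k j : ℝ) / h j * h j :=
        mul_le_mul_of_nonneg_left (hx j) (by positivity)
    _ = k j := by field_simp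

/-- configurations of boxes connected by elementary moves -/
def Conn {n : ℕ} (a h b k : Fin n → Fin 3 → ℚ) : Prop :=
  ∃ Vs : List (Sp → Sp), (∀ V ∈ Vs, Elem V) ∧ ∀ i, ∃ O : Set Sp, IsOpen O ∧
    box (a i) (h i) ⊆ O ∧ ∀ x ∈ O, Chain Vs x (dmap (a i) (h i) (b i) (k i) x)

variable {n : ℕ}

lemma Conn.refl {a h : Fin n → Fin 3 → ℚ} (hh : ∀ i j, 0 < h i j) : Conn a h a h :=
  ⟨[], by simp, fun i => ⟨univ, isOpen_univ, subset_univ _, fun x _ =>
    (dmap_self _ _ (hh i) x).symm⟩⟩

lemma Conn.trans {a h b k c m : Fin n → Fin 3 → ℚ} (hh : ∀ i j, 0 < h i j)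
    (hk : ∀ i j, 0 < k i j) (h1 : Conn a h b k) (h2 : Conn b k c m) : Conn a h c m := by
  obtain ⟨Vs, hV, hO⟩ := h1
  obtain ⟨Ws, hW, hP⟩ := h2
  refine ⟨Vs ++ Ws, fun V hVm => ?_, fun i => ?_⟩
  · rw [List.mem_append] at hVm
    exact hVm.elim (hV V) (hW V)
  · obtain ⟨O, hOo, hOb, hOc⟩ := hO i
    obtain ⟨P, hPo, hPb, hPc⟩ := hP i
    refine ⟨O ∩ (dmap (a i) (h i) (b i) (k i)) ⁻¹' P,
      hOo.inter (hPo.preimage (dmap_cont _ _ _ _)), fun x hx => ⟨hOb hx, hPb ?_⟩, fun x hx => ?_⟩
    · exact dmap_box _ _ _ _ (hh i) (hk i) hx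
    · have := (hOc x hx.1).append (hPc _ hx.2)
      rwa [dmap_comp _ _ _ _ _ _ (hh i) (hk i)] at this

lemma Conn.symm {a h b k : Fin n → Fin 3 → ℚ} (hh : ∀ i j, 0 < h i j)
    (hk : ∀ i j, 0 < k i j) (h1 : Conn a h b k) : Conn b k a h := by
  obtain ⟨Vs, hV, hO⟩ := h1
  refine ⟨(Vs.map fun V => fun z => - V z).reverse, fun V hVm => ?_, fun i => ?_⟩
  · rw [List.mem_reverse, List.mem_map] at hVm
    obtain ⟨W, hW, rfl⟩ := hVm
    exact (hV W hW).neg
  · obtain ⟨O, hOo, hOb, hOc⟩ := hO i
    refine ⟨(dmap (b i) (k i) (a i) (h i)) ⁻¹' O, hOo.preimage (dmap_cont _ _ _ _),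
      fun x hx => hOb (dmap_box _ _ _ _ (hk i) (hh i) hx), fun y hy => ?_⟩
    have := (hOc _ hy).reverse
    rwa [dmap_comp _ _ _ _ _ _ (hk i) (hh i), dmap_self _ _ (hk i)] at this

lemma chain_stay {Vs : List (Sp → Sp)} {x : Sp} (h : ∀ V ∈ Vs, V x = 0) : Chain Vs x x := by
  induction Vs with
  | nil => rfl
  | cons V Vs ih =>
    exact ⟨x, acts_stay (h V (by simp)), ih fun W hW => h W (by simp [hW])⟩

lemma conn_of_local {a h a' h' : Fin n → Fin 3 → ℚ} (hh : ∀ i j, 0 < h i j) (i0 : Fin n)
    (hne : ∀ i, i ≠ i0 → a' i = a i ∧ h' i = h i) (Vs : List (Sp → Sp))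
    (hV : ∀ V ∈ Vs, Elem V)
    (h0 : ∃ O : Set Sp, IsOpen O ∧ box (a i0) (h i0) ⊆ O ∧
      ∀ x ∈ O, Chain Vs x (dmap (a i0) (h i0) (a' i0) (h' i0) x))
    (h1 : ∀ i, i ≠ i0 → ∃ O : Set Sp, IsOpen O ∧ box (a i) (h i) ⊆ O ∧
      ∀ x ∈ O, ∀ V ∈ Vs, V x = 0) : Conn a h a' h' := by
  refine ⟨Vs, hV, fun i => ?_⟩
  by_cases hi : i = i0
  · subst hi; exact h0
  · obtain ⟨O, hO, hb, hz⟩ := h1 i hi
    refine ⟨O, hO, hb, fun x hx => ?_⟩
    rw [(hne i hi).1, (hne i hi).2, dmap_self _ _ (hh i)]
    exact chain_stay (hz x hx)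

/-- open neighbourhood of a box -/
def nbox (a h : Fin 3 → ℚ) (δ : ℚ) : Set Sp := {x | ∀ l, |x l - (a l : ℝ)| < (h l : ℝ) + δ}

lemma nbox_open (a h : Fin 3 → ℚ) (δ : ℚ) : IsOpen (nbox a h δ) := by
  have : nbox a h δ = ⋂ l, {x : Sp | |x l - (a l : ℝ)| < (h l : ℝ) + δ} := by
    ext x; simp [nbox]
  rw [this]
  exact isOpen_iInter_of_finite fun l => isOpen_lt (by fun_prop) continuous_const

lemma box_sub_nbox (a h : Fin 3 → ℚ) (δ : ℚ) (hδ : 0 < δ) : box a h ⊆ nbox a h δ := by
  intro x hx l
  have hδ' : (0:ℝ) < δ := by exact_mod_cast hδ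
  exact (hx l).trans_lt (by linarith)

/-- uniform gap -/
lemma region_sep {a h : Fin n → Fin 3 → ℚ} (i0 : Fin n) (L U : Fin 3 → ℚ)
    (hsep : ∀ i, i ≠ i0 → ∃ l, a i l + h i l < L l ∨ U l < a i l - h i l) :
    ∃ δ : ℚ, 0 < δ ∧ δ ≤ 1 ∧ ∀ i, i ≠ i0 → ∃ l, a i l + h i l + 3 * δ < L l ∨
      U l + 3 * δ < a i l - h i l := by
  have h1 : ∀ i, ∃ δ : ℚ, 0 < δ ∧ (i ≠ i0 → ∃ l, a i l + h i l + 3 * δ < L l ∨
      U l + 3 * δ < a i l - h i l) := by
    intro i
    by_cases hi : i = i0
    · exact ⟨1, one_pos, fun h => absurd hi h⟩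
    · obtain ⟨l, hl | hl⟩ := hsep i hi
      · refine ⟨(L l - (a i l + h i l)) / 4, by linarith, fun _ => ⟨l, Or.inl (by linarith)⟩⟩
      · refine ⟨(a i l - h i l - U l) / 4, by linarith, fun _ => ⟨l, Or.inr (by linarith)⟩⟩
  choose δ hδ0 hδ using h1
  have hne : (Finset.univ : Finset (Fin n)).Nonempty := ⟨i0, Finset.mem_univ _⟩
  refine ⟨min 1 (Finset.univ.inf' hne δ), lt_min one_pos ?_, min_le_left _ _, fun i hi => ?_⟩
  · rw [Finset.lt_inf'_iff]; exact fun i _ => hδ0 i
  · have hle : min 1 (Finset.univ.inf' hne δ) ≤ δ i :=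
      (min_le_right _ _).trans (Finset.inf'_le _ (Finset.mem_univ i))
    obtain ⟨l, hl | hl⟩ := hδ i hi
    · exact ⟨l, Or.inl (by linarith)⟩
    · exact ⟨l, Or.inr (by linarith)⟩

lemma acts_shear {i j : Fin 3} (hij : i ≠ j) {V : Sp → Sp} {c0 c1 : ℝ} {lo hi : Fin 3 → ℝ}
    (hin : ∀ x : Sp, (∀ l, lo l < x l ∧ x l < hi l) → V x = Pi.single i (c0 + c1 * x j))
    {x y : Sp} (hx : ∀ l, lo l < x l ∧ x l < hi l) (hy : ∀ l, lo l < y l ∧ y l < hi l)
    (hxy : y = x + Pi.single i (c0 + c1 * x j)) : Acts V x y := by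
  intro s hs
  have hd : y - x = Pi.single i (c0 + c1 * x j) := by rw [hxy]; abel
  have hreg : ∀ l, lo l < (x + s • (y - x)) l ∧ (x + s • (y - x)) l < hi l := by
    intro l
    have e : (x + s • (y - x)) l = (1 - s) * x l + s * y l := by
      simp only [Pi.add_apply, Pi.smul_apply, Pi.sub_apply, smul_eq_mul]; ring
    rw [e]
    obtain ⟨h1, h2⟩ := hx l
    obtain ⟨h3, h4⟩ := hy l
    obtain ⟨hs0, hs1⟩ := hs
    rcases hs0.eq_or_lt with h | h
    · rw [← h]; constructor <;> linarith
    · constructor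
      · nlinarith [mul_lt_mul_of_pos_left h3 h, mul_le_mul_of_nonneg_left h1.le (sub_nonneg.mpr hs1)]
      · nlinarith [mul_lt_mul_of_pos_left h4 h, mul_le_mul_of_nonneg_left h2.le (sub_nonneg.mpr hs1)]
  rw [hin _ hreg, hd]
  congr 2
  simp [Pi.single_apply, Ne.symm hij]

/-- translation of one box along an axis -/
lemma conn_translate {a h a' : Fin n → Fin 3 → ℚ} (hh : ∀ i j, 0 < h i j) (i0 : Fin n)
    (d : Fin 3) (hne : ∀ i, i ≠ i0 → a' i = a i) (h0 : ∀ l, l ≠ d → a' i0 l = a i0 l)
    (hsep : ∀ i, i ≠ i0 → (∃ l, l ≠ d ∧ h i l + h i0 l < |a i l - a i0 l|) ∨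
      (a i d + h i d < min (a i0 d) (a' i0 d) - h i0 d) ∨
      (max (a i0 d) (a' i0 d) + h i0 d < a i d - h i d)) : Conn a h a' h := by
  obtain ⟨j, hj⟩ : ∃ j : Fin 3, d ≠ j := by
    fin_cases d
    · exact ⟨1, by decide⟩
    · exact ⟨0, by decide⟩
    · exact ⟨0, by decide⟩
  set L : Fin 3 → ℚ := fun l => min (a i0 l) (a' i0 l) - h i0 l with hL
  set U : Fin 3 → ℚ := fun l => max (a i0 l) (a' i0 l) + h i0 l with hU
  obtain ⟨δ, hδ0, hδ1, hδ⟩ := region_sep (a := a) (h := h) i0 L U (fun i hi => by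
    rcases hsep i hi with ⟨l, hl, hlt⟩ | hlt | hlt
    · refine ⟨l, ?_⟩
      have e1 : L l = a i0 l - h i0 l := by rw [hL]; simp only; rw [h0 l hl, min_self]
      have e2 : U l = a i0 l + h i0 l := by rw [hU]; simp only; rw [h0 l hl, max_self]
      rw [e1, e2]
      rcases lt_abs.mp hlt with h | h
      · right; linarith
      · left; linarith
    · exact ⟨d, Or.inl hlt⟩
    · exact ⟨d, Or.inr hlt⟩)
  have hδr : (0:ℝ) < δ := by exact_mod_cast hδ0
  have hLU : ∀ l, L l - δ ≤ U l + δ := fun l => by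
    have h1 : min (a i0 l) (a' i0 l) ≤ max (a i0 l) (a' i0 l) := min_le_max
    have h2 := hh i0 l
    simp only [hL, hU]
    linarith
  obtain ⟨V, hVe, hVin, hVout⟩ := exists_elem d j hj (a' i0 d - a i0 d) 0
    (fun l => L l - δ) (fun l => U l + δ) hLU δ hδ0
  refine conn_of_local hh i0 (fun i hi => ⟨hne i hi, rfl⟩) [V] (by simpa using hVe) ?_ ?_
  · refine ⟨nbox (a i0) (h i0) δ, nbox_open _ _ _, box_sub_nbox _ _ _ hδ0, fun x hx => ?_⟩
    refine ⟨_, ?_, rfl⟩
    have hxl : ∀ l, (a i0 l : ℝ) - h i0 l - δ < x l ∧ x l < a i0 l + h i0 l + δ := fun l => by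
      have := hx l
      rw [abs_lt] at this
      constructor <;> linarith [this.1, this.2]
    have hy : dmap (a i0) (h i0) (a' i0) (h i0) x
        = x + Pi.single d (((a' i0 d - a i0 d : ℚ) : ℝ) + ((0 : ℚ) : ℝ) * x j) := by
      funext l
      unfold dmap
      rw [div_self (hh i0 l).ne']
      by_cases hl : l = d
      · subst hl; simp; ring
      · simp [hl, h0 l hl]
    refine acts_shear hj hVin (fun l => ?_) (fun l => ?_) hy
    · have h1 : ((min (a i0 l) (a' i0 l) : ℚ) : ℝ) ≤ a i0 l := by exact_mod_cast min_le_left _ _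
      have h2 : (a i0 l : ℝ) ≤ ((max (a i0 l) (a' i0 l) : ℚ) : ℝ) := by
        exact_mod_cast le_max_left _ _
      simp only [hL, hU]
      rw [Rat.cast_sub, Rat.cast_sub, Rat.cast_add, Rat.cast_add]
      constructor <;> linarith [(hxl l).1, (hxl l).2]
    · have h1 : ((min (a i0 l) (a' i0 l) : ℚ) : ℝ) ≤ a' i0 l := by exact_mod_cast min_le_right _ _
      have h2 : (a' i0 l : ℝ) ≤ ((max (a i0 l) (a' i0 l) : ℚ) : ℝ) := by
        exact_mod_cast le_max_right _ _
      have e : dmap (a i0) (h i0) (a' i0) (h i0) x l = a' i0 l + (x l - a i0 l) := by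
        unfold dmap
        rw [div_self (hh i0 l).ne']
        push_cast; ring
      rw [e]
      simp only [hL, hU]
      rw [Rat.cast_sub, Rat.cast_sub, Rat.cast_add, Rat.cast_add]
      constructor <;> linarith [(hxl l).1, (hxl l).2]
  · intro i hi
    refine ⟨nbox (a i) (h i) δ, nbox_open _ _ _, box_sub_nbox _ _ _ hδ0, fun x hx W hW => ?_⟩
    rw [List.mem_singleton] at hW
    subst hW
    obtain ⟨l, hl⟩ := hδ i hi
    have := hx l
    rw [abs_lt] at this
    refine hVout x ⟨l, ?_⟩
    rcases hl with hl | hl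
    · left
      have hl' : (a i l : ℝ) + h i l + 3 * δ < L l := by exact_mod_cast hl
      rw [Rat.cast_sub]
      linarith [this.2]
    · right
      have hl' : (U l : ℝ) + 3 * δ < a i l - h i l := by exact_mod_cast hl
      rw [Rat.cast_add]
      linarith [this.1]

/-- separated in one coordinate -/
def SepIn (d : Fin 3) (a h : Fin n → Fin 3 → ℚ) : Prop :=
  ∀ i i', i ≠ i' → h i d + h i' d < |a i d - a i' d|

lemma conn_sep {a h a' : Fin n → Fin 3 → ℚ} (hh : ∀ i j, 0 < h i j) (d : Fin 3)
    (hs : SepIn d a h) (hd : ∀ i, a' i d = a i d) : Conn a h a' h := by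
  classical
  have key : ∀ S : Finset (Fin n × Fin 3), Conn a h
      (fun i e => if (i, e) ∈ S then a' i e else a i e) h := by
    intro S
    induction S using Finset.induction_on with
    | empty => simpa using Conn.refl hh
    | insert p S hp ih =>
      obtain ⟨i0, e0⟩ := p
      refine ih.trans hh hh ?_
      have hdd : ∀ i, (if (i, d) ∈ S then a' i d else a i d) = a i d := fun i => by
        split_ifs
        · exact hd i
        · rfl
      refine conn_translate hh i0 e0 (fun i hi => ?_) (fun l hl => ?_) (fun i hi => ?_)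
      · funext e
        have : ((i, e) ∈ insert (i0, e0) S) ↔ (i, e) ∈ S := by
          rw [Finset.mem_insert]
          constructor
          · rintro (h | h)
            · exact absurd (congrArg Prod.fst h) hi
            · exact h
          · exact Or.inr
        simp only [this]
      · have : ((i0, l) ∈ insert (i0, e0) S) ↔ (i0, l) ∈ S := by
          rw [Finset.mem_insert]
          constructor
          · rintro (h | h)
            · exact absurd (congrArg Prod.snd h) hl
            · exact h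
          · exact Or.inr
        simp only [this]
      · by_cases he : e0 = d
        · subst he
          right
          have e1 : (if (i0, e0) ∈ insert (i0, e0) S then a' i0 e0 else a i0 e0) = a i0 e0 := by
            rw [if_pos (Finset.mem_insert_self _ _)]; exact hd i0
          simp only [hdd, e1, min_self, max_self]
          rcases lt_abs.mp (hs i i0 hi) with h | h
          · right; linarith
          · left; linarith
        · left
          refine ⟨d, Ne.symm he, ?_⟩
          simp only [hdd]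
          exact hs i i0 hi
  have := key Finset.univ
  simpa using this

/-- lifting all the boxes -/
lemma conn_lift {h : Fin n → Fin 3 → ℚ} (hh : ∀ i j, 0 < h i j) (H L : ℚ) (hL0 : 0 < L)
    (hL : ∀ i i', h i 2 + h i' 2 < L) (s : ℕ) : ∀ (S : Finset (Fin n)) (a : Fin n → Fin 3 → ℚ),
    S.card = s → (∀ i ∈ S, a i 2 + h i 2 ≤ H) →
    (∀ i ∈ S, ∀ i' ∈ S, i ≠ i' → ∃ l, h i l + h i' l < |a i l - a i' l|) →
    (∀ i, i ∉ S → H + (s + 1) * L ≤ a i 2) →
    (∀ i i', i ∉ S → i' ∉ S → i ≠ i' → L ≤ |a i 2 - a i' 2|) →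
    ∃ a', Conn a h a' h ∧ SepIn 2 a' h := by
  classical
  induction s with
  | zero =>
    intro S a hS _ _ _ h4
    rw [Finset.card_eq_zero] at hS
    subst hS
    exact ⟨a, Conn.refl hh, fun i i' hii => (hL i i').trans_le (h4 i i' (by simp) (by simp) hii)⟩
  | succ s ih =>
    intro S a hS h1 h2 h3 h4
    have hne : S.Nonempty := by rw [← Finset.card_pos]; omega
    obtain ⟨i0, hi0, hmax⟩ := S.exists_max_image (fun i => a i 2 - h i 2) hne
    set a1 : Fin n → Fin 3 → ℚ := fun i l => if i = i0 ∧ l = 2 then H + (s + 1) * L else a i l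
      with ha1
    have ha1_ne : ∀ i, i ≠ i0 → a1 i = a i := fun i hi => by
      funext l; simp only [ha1, hi, false_and, if_false]
    have ha1_2 : a1 i0 2 = H + (s + 1) * L := by simp only [ha1, and_self, if_true]
    have hsL : (0:ℚ) ≤ s * L := by positivity
    have hhi0 := hh i0 2
    have htop := h1 i0 hi0
    have hle : a i0 2 ≤ a1 i0 2 := by rw [ha1_2]; linarith
    have hconn : Conn a h a1 h := by
      refine conn_translate hh i0 2 ha1_ne (fun l hl => ?_) (fun i hi => ?_)
      · simp only [ha1, hl, and_false, if_false]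
      · rw [min_eq_left hle, max_eq_right hle, ha1_2]
        by_cases hiS : i ∈ S
        · obtain ⟨l, hl⟩ := h2 i hiS i0 hi0 hi
          by_cases hl2 : l = 2
          · subst hl2
            right; left
            rcases lt_abs.mp hl with hlt | hlt
            · exfalso
              have h5 : a i 2 - h i 2 ≤ a i0 2 - h i0 2 := hmax i hiS
              linarith
            · linarith
          · exact Or.inl ⟨l, hl2, hl⟩
        · right; right
          have h5 := h3 i hiS
          have h6 := hL i i0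
          push_cast at h5
          linarith
    obtain ⟨a', hc, hs'⟩ := ih (S.erase i0) a1
      (by rw [Finset.card_erase_of_mem hi0, hS]; rfl)
      (fun i hi => by
        rw [ha1_ne i (Finset.ne_of_mem_erase hi)]
        exact h1 i (Finset.mem_of_mem_erase hi))
      (fun i hi i' hi' hii => by
        rw [ha1_ne i (Finset.ne_of_mem_erase hi), ha1_ne i' (Finset.ne_of_mem_erase hi')]
        exact h2 i (Finset.mem_of_mem_erase hi) i' (Finset.mem_of_mem_erase hi') hii)
      (fun i hi => by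
        by_cases h : i = i0
        · rw [h, ha1_2]
        · rw [ha1_ne i h]
          have h5 := h3 i (fun hS' => hi (Finset.mem_erase.mpr ⟨h, hS'⟩))
          push_cast at h5
          linarith)
      (fun i i' hi hi' hii => by
        by_cases h : i = i0
        · have h' : i' ≠ i0 := fun h'' => hii (h.trans h''.symm)
          rw [h, ha1_2, ha1_ne i' h']
          have h5 := h3 i' (fun hS' => hi' (Finset.mem_erase.mpr ⟨h', hS'⟩))
          push_cast at h5
          rw [abs_sub_comm]
          exact le_trans (by linarith) (le_abs_self _)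
        · by_cases h' : i' = i0
          · rw [h', ha1_2, ha1_ne i h]
            have h5 := h3 i (fun hS' => hi (Finset.mem_erase.mpr ⟨h, hS'⟩))
            push_cast at h5
            exact le_trans (by linarith) (le_abs_self _)
          · rw [ha1_ne i h, ha1_ne i' h']
            exact h4 i i' (fun hS' => hi (Finset.mem_erase.mpr ⟨h, hS'⟩))
              (fun hS' => hi' (Finset.mem_erase.mpr ⟨h', hS'⟩)) hii)
    exact ⟨a', hconn.trans hh hh hc, hs'⟩

lemma sep_of_disjoint {a h a' h' : Fin 3 → ℚ} (hh : ∀ j, 0 < h j) (hh' : ∀ j, 0 < h' j)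
    (hd : Disjoint (box a h) (box a' h')) : ∃ l, h l + h' l < |a l - a' l| := by
  by_contra hcon
  push Not at hcon
  rw [Set.disjoint_left] at hd
  refine hd (a := fun l => ((max (a l - h l) (a' l - h' l) : ℚ) : ℝ)) ?_ ?_
  · intro l
    have h1 := abs_le.mp (hcon l)
    have h2 := hh l
    have h3 := hh' l
    have : |max (a l - h l) (a' l - h' l) - a l| ≤ h l := by
      rw [abs_le]
      constructor
      · have := le_max_left (a l - h l) (a' l - h' l); linarith
      · rw [sub_le_iff_le_add]; exact max_le (by linarith) (by linarith [h1.1])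
    show |((max (a l - h l) (a' l - h' l) : ℚ) : ℝ) - (a l : ℝ)| ≤ (h l : ℝ)
    exact_mod_cast this
  · intro l
    have h1 := abs_le.mp (hcon l)
    have h2 := hh l
    have h3 := hh' l
    have : |max (a l - h l) (a' l - h' l) - a' l| ≤ h' l := by
      rw [abs_le]
      constructor
      · have := le_max_right (a l - h l) (a' l - h' l); linarith
      · rw [sub_le_iff_le_add]; exact max_le (by linarith [h1.2]) (by linarith)
    show |((max (a l - h l) (a' l - h' l) : ℚ) : ℝ) - (a' l : ℝ)| ≤ (h' l : ℝ)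
    exact_mod_cast this

lemma exists_bound (f : Fin n → ℚ) : ∃ B : ℚ, 0 < B ∧ ∀ i, f i ≤ B := by
  refine ⟨∑ i, |f i| + 1, by positivity, fun i => ?_⟩
  have h1 : |f i| ≤ ∑ i, |f i| :=
    Finset.single_le_sum (f := fun i => |f i|) (fun _ _ => abs_nonneg _) (Finset.mem_univ i)
  linarith [le_abs_self (f i)]

/-- spreading disjoint boxes along the first axis -/
lemma conn_spread {a h : Fin n → Fin 3 → ℚ} (hh : ∀ i j, 0 < h i j)
    (ha : Pairwise fun i i' => Disjoint (box (a i) (h i)) (box (a i') (h i')))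
    (X : Fin n → ℚ) (hX : ∀ i i', i ≠ i' → h i 0 + h i' 0 < |X i - X i'|) :
    Conn a h (fun i => ![X i, 0, 0]) h := by
  obtain ⟨B, hB0, hB⟩ := exists_bound (fun i => h i 2)
  obtain ⟨H, hH0, hH⟩ := exists_bound (fun i => a i 2 + h i 2)
  obtain ⟨a', hc, hs⟩ := conn_lift hh H (2 * B + 1) (by linarith)
    (fun i i' => by linarith [hB i, hB i']) _ Finset.univ a rfl (fun i _ => hH i)
    (fun i _ i' _ hii => sep_of_disjoint (hh i) (hh i') (ha hii))
    (fun i hi => absurd (Finset.mem_univ i) hi)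
    (fun i i' hi => absurd (Finset.mem_univ i) hi)
  have h2 : Conn a' h (fun i => ![X i, 0, a' i 2]) h := conn_sep hh 2 hs (fun i => by simp)
  have h3 : Conn (fun i => ![X i, 0, a' i 2]) h (fun i => ![X i, 0, 0]) h :=
    conn_sep hh 0 (fun i i' hii => by simpa using hX i i' hii) (fun i => by simp)
  exact (hc.trans hh hh h2).trans hh hh h3

/-- rescaling one box in the `(p,q)` plane -/
lemma conn_rescale2 {a h h' : Fin n → Fin 3 → ℚ} (hh : ∀ i j, 0 < h i j) (i0 : Fin n)
    (p q : Fin 3) (hpq : p ≠ q) (r : ℚ) (hr : 0 < r) (hne : ∀ i, i ≠ i0 → h' i = h i)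
    (hp : h' i0 p = r * h i0 p) (hq : h' i0 q = h i0 q / r)
    (hl : ∀ l, l ≠ p → l ≠ q → h' i0 l = h i0 l) (T M : ℚ) (hT : ∀ l, h i0 l + 1 ≤ T)
    (hM : (2 + r + 1 / r) * T ≤ M)
    (hsep : ∀ i, i ≠ i0 → ∃ l, a i l + h i l < a i0 l - M ∨ a i0 l + M < a i l - h i l) :
    Conn a h a h' := by
  have hqp : q ≠ p := Ne.symm hpq
  set L : Fin 3 → ℚ := fun l => a i0 l - M with hL
  set U : Fin 3 → ℚ := fun l => a i0 l + M with hU
  obtain ⟨δ, hδ0, hδ1, hδ⟩ := region_sep (a := a) (h := h) i0 L U hsep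
  have hT0 : 0 < T := by have := hT p; have := hh i0 p; linarith
  have hM0 : 0 < M := by
    have h1 : 0 < (2 + r + 1 / r) * T := by positivity
    linarith
  have hLU : ∀ l, L l - δ ≤ U l + δ := fun l => by simp only [hL, hU]; linarith
  have hδr : (0:ℝ) < δ := by exact_mod_cast hδ0
  have hδr1 : (δ:ℝ) ≤ 1 := by exact_mod_cast hδ1
  obtain ⟨V1, hVe1, hVin1, hVout1⟩ := exists_elem q p hqp (r * a i0 p) (-r)
    (fun l => L l - δ) (fun l => U l + δ) hLU δ hδ0
  obtain ⟨V2, hVe2, hVin2, hVout2⟩ := exists_elem p q hpq (-(1 / r - 1) * a i0 q) (1 / r - 1)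
    (fun l => L l - δ) (fun l => U l + δ) hLU δ hδ0
  obtain ⟨V3, hVe3, hVin3, hVout3⟩ := exists_elem q p hqp (- a i0 p) 1
    (fun l => L l - δ) (fun l => U l + δ) hLU δ hδ0
  obtain ⟨V4, hVe4, hVin4, hVout4⟩ := exists_elem p q hpq (-(r - 1) * a i0 q) (r - 1)
    (fun l => L l - δ) (fun l => U l + δ) hLU δ hδ0
  refine conn_of_local hh i0 (fun i hi => ⟨rfl, hne i hi⟩) [V1, V2, V3, V4] ?_ ?_ ?_
  · intro V hV
    simp only [List.mem_cons, List.not_mem_nil, or_false] at hV
    rcases hV with rfl | rfl | rfl | rfl <;> assumption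
  · refine ⟨nbox (a i0) (h i0) δ, nbox_open _ _ _, box_sub_nbox _ _ _ hδ0, fun x hx => ?_⟩
    -- real versions
    set R : ℝ := (r : ℝ) with hR
    have hR0 : 0 < R := by rw [hR]; exact_mod_cast hr
    set A : Fin 3 → ℝ := fun l => (a i0 l : ℝ) with hA
    have hx' : ∀ l, |x l - A l| < T := fun l => by
      have h1 : (h i0 l : ℝ) + 1 ≤ T := by exact_mod_cast hT l
      exact (hx l).trans_le (by linarith)
    have hTr : (0:ℝ) < T := by exact_mod_cast hT0
    have hMr : (2 + R + 1 / R) * T ≤ M := by rw [hR]; exact_mod_cast hM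
    -- all points are described by their (p,q) offsets
    let pt : ℝ → ℝ → Sp := fun u v l => if l = p then A p + u else if l = q then A q + v else x l
    have hptp : ∀ u v, pt u v p = A p + u := fun u v => by simp only [pt, if_true]
    have hptq : ∀ u v, pt u v q = A q + v := fun u v => by
      simp only [pt, hqp, if_false, if_true]
    have hptl : ∀ u v l, l ≠ p → l ≠ q → pt u v l = x l := fun u v l h1 h2 => by
      simp only [pt, h1, h2, if_false]
    have hreg : ∀ u v, |u| ≤ (1 + R + 1 / R) * T → |v| ≤ (1 + R + 1 / R) * T →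
        ∀ l, ((L l - δ : ℚ) : ℝ) < pt u v l ∧ pt u v l < ((U l + δ : ℚ) : ℝ) := by
      intro u v hu hv l
      have hb : ∀ w : ℝ, |w| ≤ (1 + R + 1 / R) * T → -(M:ℝ) - δ < w ∧ w < M + δ := by
        intro w hw
        rw [abs_le] at hw
        have : (1 + R + 1 / R) * (T:ℝ) ≤ (2 + R + 1 / R) * T :=
          mul_le_mul_of_nonneg_right (by linarith) hTr.le
        constructor <;> linarith [hw.1, hw.2]
      simp only [hL, hU]
      rw [Rat.cast_sub, Rat.cast_sub, Rat.cast_add, Rat.cast_add]
      by_cases h1 : l = p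
      · subst h1
        rw [hptp]
        have := hb u hu
        simp only [hA]
        constructor <;> linarith [this.1, this.2]
      · by_cases h2 : l = q
        · subst h2
          rw [hptq]
          have := hb v hv
          simp only [hA]
          constructor <;> linarith [this.1, this.2]
        · rw [hptl _ _ _ h1 h2]
          have h3 := hx' l
          have h4 : |x l - A l| ≤ (1 + R + 1 / R) * T := by
            refine h3.le.trans ?_
            have h5 : 0 ≤ (R + 1 / R) * (T:ℝ) := by positivity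
            nlinarith
          have := hb _ h4
          simp only [hA] at this
          constructor <;> linarith [this.1, this.2]
    set u := x p - A p with hu
    set v := x q - A q with hv
    have hub : |u| ≤ T := (hx' p).le
    have hvb : |v| ≤ T := (hx' q).le
    have hx0 : x = pt u v := by
      funext l
      by_cases h1 : l = p
      · subst h1; rw [hptp]; rw [hu]; ring
      · by_cases h2 : l = q
        · subst h2; rw [hptq]; rw [hv]; ring
        · rw [hptl _ _ _ h1 h2]
    have hRi : 0 < 1 / R := by positivity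
    have b0u : |u| ≤ (1 + R + 1 / R) * T := by
      have h5 : 0 ≤ (R + 1 / R) * (T:ℝ) := by positivity
      nlinarith
    have b0v : |v| ≤ (1 + R + 1 / R) * T := by
      have h5 : 0 ≤ (R + 1 / R) * (T:ℝ) := by positivity
      nlinarith
    have bru : |R * u| ≤ R * T := by
      rw [abs_mul, abs_of_pos hR0]; exact mul_le_mul_of_nonneg_left hub hR0.le
    have brv : |v / R| ≤ 1 / R * T := by
      rw [abs_div, abs_of_pos hR0, div_eq_inv_mul, one_div]
      exact mul_le_mul_of_nonneg_left hvb (by positivity)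
    have b1v : |v - R * u| ≤ (1 + R + 1 / R) * T := by
      refine (abs_sub _ _).trans ?_
      have h5 : 0 ≤ 1 / R * (T:ℝ) := by positivity
      nlinarith
    have b2u : |R * u + (1 / R - 1) * v| ≤ (1 + R + 1 / R) * T := by
      refine (abs_add_le _ _).trans ?_
      have : |(1 / R - 1) * v| ≤ (1 / R + 1) * T := by
        rw [abs_mul]
        refine mul_le_mul ?_ hvb (abs_nonneg _) (by positivity)
        rw [abs_le]; constructor <;> linarith
      nlinarith
    have b3v : |v / R| ≤ (1 + R + 1 / R) * T := by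
      have h5 : 0 ≤ (1 + R) * (T:ℝ) := by positivity
      nlinarith
    have b4u : |R * u| ≤ (1 + R + 1 / R) * T := by
      have h5 : 0 ≤ (1 + 1 / R) * (T:ℝ) := by positivity
      nlinarith
    have stepq : ∀ (u v v' : ℝ) (c0 c1 : ℝ), v' = v + (c0 + c1 * (A p + u)) →
        pt u v' = pt u v + Pi.single q (c0 + c1 * pt u v p) := by
      intro u v v' c0 c1 hv'
      funext l
      rw [hptp]
      by_cases h1 : l = p
      · subst h1; simp [hptp, hpq]
      · by_cases h2 : l = q
        · subst h2; simp only [hptq, Pi.add_apply, Pi.single_eq_same]; rw [hv']; ring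
        · simp [hptl _ _ _ h1 h2, h2]
    have stepp : ∀ (u v u' : ℝ) (c0 c1 : ℝ), u' = u + (c0 + c1 * (A q + v)) →
        pt u' v = pt u v + Pi.single p (c0 + c1 * pt u v q) := by
      intro u v u' c0 c1 hu'
      funext l
      rw [hptq]
      by_cases h1 : l = p
      · subst h1; simp only [hptp, Pi.add_apply, Pi.single_eq_same]; rw [hu']; ring
      · by_cases h2 : l = q
        · subst h2; simp [hptq, hqp]
        · simp [hptl _ _ _ h1 h2, h1]
    have c1 : Acts V1 x (pt u (v - R * u)) := by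
      refine acts_shear hqp hVin1 (by rw [hx0]; exact hreg _ _ b0u b0v) (hreg _ _ b0u b1v) ?_
      conv_rhs => rw [hx0]
      refine stepq _ _ _ _ _ ?_
      push_cast
      simp only [hA, hR]; ring
    have c2 : Acts V2 (pt u (v - R * u)) (pt (R * u + (1 / R - 1) * v) (v - R * u)) := by
      refine acts_shear hpq hVin2 (hreg _ _ b0u b1v) (hreg _ _ b2u b1v) ?_
      refine stepp _ _ _ _ _ ?_
      push_cast
      simp only [hA, hR]
      have : (r:ℝ) ≠ 0 := hR0.ne'
      field_simp
      ring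
    have c3 : Acts V3 (pt (R * u + (1 / R - 1) * v) (v - R * u))
        (pt (R * u + (1 / R - 1) * v) (v / R)) := by
      refine acts_shear hqp hVin3 (hreg _ _ b2u b1v) (hreg _ _ b2u b3v) ?_
      refine stepq _ _ _ _ _ ?_
      push_cast
      simp only [hA, hR]
      have : (r:ℝ) ≠ 0 := hR0.ne'
      field_simp
      ring
    have c4 : Acts V4 (pt (R * u + (1 / R - 1) * v) (v / R)) (pt (R * u) (v / R)) := by
      refine acts_shear hpq hVin4 (hreg _ _ b2u b3v) (hreg _ _ b4u b3v) ?_
      refine stepp _ _ _ _ _ ?_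
      push_cast
      simp only [hA, hR]
      have : (r:ℝ) ≠ 0 := hR0.ne'
      field_simp
      ring
    have hfin : pt (R * u) (v / R) = dmap (a i0) (h i0) (a i0) (h' i0) x := by
      funext l
      unfold dmap
      by_cases h1 : l = p
      · subst h1
        rw [hptp, hp, mul_div_assoc, div_self (hh i0 l).ne', mul_one]
      · by_cases h2 : l = q
        · subst h2
          have h3 : h' i0 l / h i0 l = 1 / r := by
            rw [hq]
            have := (hh i0 l).ne'
            field_simp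
          rw [hptq, h3]
          push_cast
          simp only [hA, hv, hR]
          ring
        · rw [hptl _ _ _ h1 h2, hl l h1 h2, div_self (hh i0 l).ne']
          push_cast
          ring
    exact ⟨_, c1, _, c2, _, c3, _, c4, hfin⟩
  · intro i hi
    refine ⟨nbox (a i) (h i) δ, nbox_open _ _ _, box_sub_nbox _ _ _ hδ0, fun x hx W hW => ?_⟩
    obtain ⟨l, hl'⟩ := hδ i hi
    have := hx l
    rw [abs_lt] at this
    have hout : ∃ l, x l < ((L l - δ : ℚ) : ℝ) - δ ∨ ((U l + δ : ℚ) : ℝ) + δ < x l := by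
      refine ⟨l, ?_⟩
      rcases hl' with hl' | hl'
      · left
        have hl'' : (a i l : ℝ) + h i l + 3 * δ < L l := by exact_mod_cast hl'
        rw [Rat.cast_sub]
        linarith [this.2]
      · right
        have hl'' : (U l : ℝ) + 3 * δ < a i l - h i l := by exact_mod_cast hl'
        rw [Rat.cast_add]
        linarith [this.1]
    simp only [List.mem_cons, List.not_mem_nil, or_false] at hW
    rcases hW with rfl | rfl | rfl | rfl
    · exact hVout1 x hout
    · exact hVout2 x hout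
    · exact hVout3 x hout
    · exact hVout4 x hout

end Crest.Agent.H4
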