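import Mathlib
import Crest.Agent.H4.BoxPlan

/-! Rescaling all boxes and the final assembly. -/

set_option autoImplicit false
set_option linter.unusedVariables false

namespace Crest.Agent.H4

open Filter Topology Crest.AnalysisR.BoxFlow Set

variable {n : ℕ}

/-- size bound needed for rescaling the box of half-widths `h` to `k` -/
noncomputable def mq (h k : Fin 3 → ℚ) : ℚ :=
  (2 + k 0 / h 0 + 1 / (k 0 / h 0) + (k 1 / (h 1 * h 0 / k 0)) + 1 / (k 1 / (h 1 * h 0 / k 0))) *
    (h 0 + h 1 + h 2 + h 1 * h 0 / k 0 + k 0 + 1)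

lemma conn_rescale_one {a h : Fin n → Fin 3 → ℚ} (hh : ∀ i j, 0 < h i j) (i0 : Fin n)
    (k0 : Fin 3 → ℚ) (hk0 : ∀ j, 0 < k0 j) (hvol : ∏ j : Fin 3, k0 j / h i0 j = 1)
    (M : ℚ) (hM : mq (h i0) k0 ≤ M)
    (hsep : ∀ i, i ≠ i0 → ∃ l, a i l + h i l < a i0 l - M ∨ a i0 l + M < a i l - h i l) :
    Conn a h a (Function.update h i0 k0) := by
  have p0 := hh i0 0
  have p1 := hh i0 1
  have p2 := hh i0 2
  have q0 := hk0 0
  have q1 := hk0 1
  have q2 := hk0 2
  set m : Fin 3 → ℚ := ![k0 0, h i0 1 * h i0 0 / k0 0, h i0 2] with hm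
  have hm0 : m 0 = k0 0 := rfl
  have hm1 : m 1 = h i0 1 * h i0 0 / k0 0 := rfl
  have hm2 : m 2 = h i0 2 := rfl
  set h1 : Fin n → Fin 3 → ℚ := Function.update h i0 m with hh1
  have h1i0 : h1 i0 = m := by simp [hh1]
  have h1ne : ∀ i, i ≠ i0 → h1 i = h i := fun i hi => by simp [hh1, hi]
  have hm1p : 0 < h i0 1 * h i0 0 / k0 0 := by positivity
  have hmpos : ∀ l, 0 < m l := by
    intro l; fin_cases l
    · exact q0
    · exact hm1p
    · exact p2
  have h1pos : ∀ i j, 0 < h1 i j := by
    intro i j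
    by_cases hi : i = i0
    · subst hi; rw [h1i0]; exact hmpos j
    · rw [h1ne i hi]; exact hh i j
  set T : ℚ := h i0 0 + h i0 1 + h i0 2 + h i0 1 * h i0 0 / k0 0 + k0 0 + 1 with hT
  have hTpos : 0 < T := by positivity
  have r1 : 0 < k0 0 / h i0 0 := by positivity
  have r2 : 0 < k0 1 / (h i0 1 * h i0 0 / k0 0) := by positivity
  have hMle : (2 + k0 0 / h i0 0 + 1 / (k0 0 / h i0 0)
      + (k0 1 / (h i0 1 * h i0 0 / k0 0)) + 1 / (k0 1 / (h i0 1 * h i0 0 / k0 0))) * T ≤ M := hM
  have step1 : Conn a h a h1 := by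
    refine conn_rescale2 hh i0 0 1 (by decide) (k0 0 / h i0 0) r1 (fun i hi => h1ne i hi)
      ?_ ?_ ?_ T M ?_ ?_ hsep
    · rw [h1i0, hm0]; field_simp
    · rw [h1i0, hm1]; field_simp
    · intro l hl0 hl1
      fin_cases l
      · exact absurd rfl hl0
      · exact absurd rfl hl1
      · show h1 i0 2 = h i0 2
        rw [h1i0, hm2]
    · intro l
      fin_cases l
      · show h i0 0 + 1 ≤ T; rw [hT]; linarith
      · show h i0 1 + 1 ≤ T; rw [hT]; linarith
      · show h i0 2 + 1 ≤ T; rw [hT]; linarith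
    · refine le_trans (mul_le_mul_of_nonneg_right ?_ hTpos.le) hMle
      have : 0 < 1 / (k0 1 / (h i0 1 * h i0 0 / k0 0)) := by positivity
      linarith
  have step2 : Conn a h1 a (Function.update h i0 k0) := by
    refine conn_rescale2 h1pos i0 1 2 (by decide) (k0 1 / (h i0 1 * h i0 0 / k0 0)) r2
      (fun i hi => ?_) ?_ ?_ ?_ T M ?_ ?_ ?_
    · rw [h1ne i hi, Function.update_of_ne hi]
    · rw [Function.update_self, h1i0, hm1]; field_simp
    · rw [Function.update_self, h1i0, hm2]
      rw [Fin.prod_univ_three] at hvol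
      field_simp at hvol ⊢
      linarith
    · intro l hl0 hl1
      rw [Function.update_self, h1i0]
      fin_cases l
      · rfl
      · exact absurd rfl hl0
      · exact absurd rfl hl1
    · intro l
      rw [h1i0]
      fin_cases l
      · show k0 0 + 1 ≤ T; rw [hT]; linarith
      · show h i0 1 * h i0 0 / k0 0 + 1 ≤ T; rw [hT]; linarith
      · show h i0 2 + 1 ≤ T; rw [hT]; linarith
    · refine le_trans (mul_le_mul_of_nonneg_right ?_ hTpos.le) hMle
      have : 0 < 1 / (k0 0 / h i0 0) := by positivity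
      linarith
    · intro i hi
      rw [h1ne i hi]
      exact hsep i hi
  exact step1.trans hh h1pos step2

lemma conn_rescale_all {a h k : Fin n → Fin 3 → ℚ} (hh : ∀ i j, 0 < h i j)
    (hk : ∀ i j, 0 < k i j) (hvol : ∀ i, ∏ j : Fin 3, k i j / h i j = 1)
    (M : ℚ) (hM : ∀ i, mq (h i) (k i) ≤ M) (W : ℚ) (hW : ∀ i, h i 0 ≤ W) (hW' : ∀ i, k i 0 ≤ W)
    (hsep : ∀ i i', i ≠ i' → M + W < |a i 0 - a i' 0|) (S : Finset (Fin n)) :
    Conn a h a (fun i => if i ∈ S then k i else h i) := by
  induction S using Finset.induction_on with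
  | empty => simpa using Conn.refl hh
  | insert i0 S hi0 ih =>
    set hS : Fin n → Fin 3 → ℚ := fun i => if i ∈ S then k i else h i with hhS
    have hSpos : ∀ i j, 0 < hS i j := by
      intro i j
      simp only [hhS]
      split_ifs
      · exact hk i j
      · exact hh i j
    have hSi0 : hS i0 = h i0 := by simp [hhS, hi0]
    have heq : (fun i => if i ∈ insert i0 S then k i else h i) = Function.update hS i0 (k i0) := by
      funext i
      by_cases hi : i = i0
      · subst hi; simp
      · simp [hhS, hi, Finset.mem_insert]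
    rw [heq]
    refine ih.trans hh hSpos (conn_rescale_one hSpos i0 (k i0) (hk i0) ?_ M ?_ ?_)
    · rw [hSi0]; exact hvol i0
    · rw [hSi0]; exact hM i0
    · intro i hi
      refine ⟨0, ?_⟩
      have h1 := hsep i i0 hi
      have h2 : hS i 0 ≤ W := by
        simp only [hhS]
        split_ifs
        · exact hW' i
        · exact hW i
      rcases lt_abs.mp h1 with h3 | h3
      · right; linarith
      · left; linarith

theorem conn_all {a b h k : Fin n → Fin 3 → ℚ} (hh : ∀ i j, 0 < h i j)
    (hk : ∀ i j, 0 < k i j)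
    (ha : Pairwise fun i i' => Disjoint (box (a i) (h i)) (box (a i') (h i')))
    (hb : Pairwise fun i i' => Disjoint (box (b i) (k i)) (box (b i') (k i')))
    (hvol : ∀ i, ∏ j : Fin 3, k i j / h i j = 1) : Conn a h b k := by
  obtain ⟨M, hM0, hM⟩ := exists_bound (fun i => mq (h i) (k i))
  obtain ⟨W1, hW10, hW1⟩ := exists_bound (fun i => h i 0)
  obtain ⟨W2, hW20, hW2⟩ := exists_bound (fun i => k i 0)
  set W := W1 + W2 with hW
  set X : Fin n → ℚ := fun i => (i.val : ℚ) * (M + 2 * W + 1) with hX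
  have hXs : ∀ i i', i ≠ i' → M + 2 * W + 1 ≤ |X i - X i'| := by
    intro i i' hii
    have hpos : 0 < M + 2 * W + 1 := by positivity
    have h1 : X i - X i' = ((i.val : ℚ) - (i'.val : ℚ)) * (M + 2 * W + 1) := by
      simp only [hX]; ring
    rw [h1, abs_mul, abs_of_pos hpos]
    have h2 : (1:ℚ) ≤ |(i.val : ℚ) - (i'.val : ℚ)| := by
      have h3 : ((i.val : ℤ) - (i'.val : ℤ)) ≠ 0 := by
        intro h4
        apply hii
        apply Fin.ext
        omega
      have h5 : (1:ℤ) ≤ |(i.val : ℤ) - (i'.val : ℤ)| := Int.one_le_abs h3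
      exact_mod_cast h5
    nlinarith
  have c1 : Conn a h (fun i => ![X i, 0, 0]) h := conn_spread hh ha X (fun i i' hii => by
    have h1 := hXs i i' hii
    have h2 := hW1 i
    have h3 := hW1 i'
    linarith)
  have c3 : Conn b k (fun i => ![X i, 0, 0]) k := conn_spread hk hb X (fun i i' hii => by
    have h1 := hXs i i' hii
    have h2 := hW2 i
    have h3 := hW2 i'
    linarith)
  have c2 : Conn (fun i => ![X i, 0, 0]) h (fun i => ![X i, 0, 0]) k := by
    have := conn_rescale_all (a := fun i => ![X i, 0, 0]) hh hk hvol M hM W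
      (fun i => by have := hW1 i; linarith)
      (fun i => by have := hW2 i; linarith)
      (fun i i' hii => by
        have h1 := hXs i i' hii
        show M + W < |X i - X i'|
        linarith) Finset.univ
    simpa using this
  exact (c1.trans hh hh c2).trans hh hk (c3.symm hk hk)

end Crest.Agent.H4
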